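import Vale.Agent.P022.H227.PhiC

/-!
# P022-L3, chapter C: `Phi` on `M_(i+1)(Γ₁(3))` and the generators `gHk 3`
-/

open UpperHalfPlane CongruenceSubgroup
open scoped MatrixGroups ModularForm

noncomputable section

namespace Vale.Agent.P022.H227

open Vale.Agent.P022 Vale.Agent.P022.L3 Vale.Agent.P022.H527.L3

open Vale.Agent.P022.H420.L3 (act)

variable {N : ℕ} [NeZero N] {i w : ℕ}

lemma hk_of (hi : i = w + 1) : (((i + 1 : ℕ)) : ℤ) = (w : ℤ) + 2 := by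
  subst hi; push_cast; ring

/-- the cocycle `Γ₁(N) → Pw w ℂ` of a form of weight `i + 1 = w + 2` -/
def phi (hi : i = w + 1) : MF N (i + 1) →ₗ[ℂ] (Gamma1 N → Fin (w + 1) → ℂ) :=
  Phi (Γ := Gamma1 N) (hk_of hi)

theorem phi_coc (hi : i = w + 1) (f : MF N (i + 1)) (γ δ : Gamma1 N) :
    phi hi f (γ * δ) = act w ((δ : SL(2, ℤ)) : M2) (phi hi f γ) + phi hi f δ :=
  Phi_coc (hk_of hi) (isAct_act w) f γ δ

theorem phi_inj (hi : i = w + 1) (f : MF N (i + 1)) (b : Fin (w + 1) → ℂ)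
    (hb : ∀ γ : Gamma1 N, phi hi f γ = act w ((γ : SL(2, ℤ)) : M2) b - b) : f = 0 :=
  Phi_inj (hk_of hi) (isAct_act w) f b hb

/-- `T_ℓ` -/
theorem phi_T (hi : i = w + 1) {M : ℕ} (ℓ : PA N) {δ : SL(2, ℤ)} (hδ : IsDel N M ℓ.1 δ)
    (h : Rep (rho (Gamma1 N)) (alp M ℓ.1 δ)) (f : MF N (i + 1)) :
    ∃ b : Fin (w + 1) → ℂ, ∀ γ : Gamma1 N,
      phi hi (gHk N (Sum.inl ℓ) i f) γ - h.hc (act w) (phi hi f) γ =
        act w ((γ : SL(2, ℤ)) : M2) b - b :=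
  Phi_hecke (hk_of hi) (isAct_act w) h (det_alp_pos ℓ.2.1.pos δ) f _ (Tl_alp ℓ hδ f)

/-- `ℓ S_ℓ = ℓ^i ⟨ℓ⟩` -/
theorem phi_S (hi : i = w + 1) {M : ℕ} (ℓ : PA N) {δ : SL(2, ℤ)} (hδ : IsDel N M ℓ.1 δ)
    (h : Rep (rho (Gamma1 N)) (fun _ : Unit => (δ : M2))) (f : MF N (i + 1)) :
    ∃ b : Fin (w + 1) → ℂ, ∀ γ : Gamma1 N,
      phi hi (gHk N (Sum.inr ℓ) i f) γ - ((ℓ.1 : ℂ) ^ i) • h.hc (act w) (phi hi f) γ =
        act w ((γ : SL(2, ℤ)) : M2) b - b := by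
  obtain ⟨b, hb⟩ := Phi_hecke (hk_of hi) (isAct_act w) h (fun _ => det_SL_pos δ) f
    (H783.dia (i + 1) ℓ f) (by
      rw [dia_isDel ℓ hδ f, Fintype.sum_unique, gl_SL]
      rfl)
  refine ⟨((ℓ.1 : ℂ) ^ i) • b, fun γ => toF_injective ?_⟩
  have h1 : gHk N (Sum.inr ℓ) i f = ((ℓ.1 : ℂ) ^ i) • H783.dia (i + 1) ℓ f := rfl
  have h2 := congrArg toF (hb γ)
  have h3 : phi hi (((ℓ.1 : ℂ) ^ i) • H783.dia (i + 1) ℓ f) γ =
      ((ℓ.1 : ℂ) ^ i) • phi hi (H783.dia (i + 1) ℓ f) γ := by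
    rw [map_smul]
    rfl
  rw [h1, h3, ← smul_sub, toF_smul, toF_sub (act w _ _), isAct_act w _ (det_SL_pos _), toF_smul,
    actG_smul, ← smul_sub]
  rw [toF_sub (act w _ _), isAct_act w _ (det_SL_pos _)] at h2
  rw [← h2]
  rfl

/-! ### odd weight, level 3: the diamond operators are scalars -/

lemma slash_neg_one {k : ℤ} (f : ℍ → ℂ) (hk : Odd k) : f ∣[k] (-1 : SL(2, ℤ)) = -f := by
  funext τ
  rw [ModularForm.SL_slash_apply]
  have h1 : denom ((-1 : SL(2, ℤ)) : GL (Fin 2) ℝ) (τ : ℂ) = -1 := by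
    rw [ModularGroup.denom_apply]
    simp
  have h2 : (-1 : SL(2, ℤ)) • τ = τ := by
    rw [ModularGroup.SL_neg_smul, one_smul]
  have h3 : (-1 : ℂ) ^ (-k) = -1 := by
    rw [Odd.neg_one_zpow hk.neg]
  rw [h1, h2, h3, mul_neg_one]
  rfl

theorem dia_eps {i : ℕ} (hi : Even i) (ℓ : PA 3) (f : MF 3 (i + 1)) :
    H783.dia (i + 1) ℓ f = ((jacobiSym ℓ.1 3 : ℤ) : ℂ) • f := by
  apply DFunLike.coe_injective
  rw [H783.dia_coe, dFun]
  set δ := gd 3 ℓ.1 ℓ.coprime with hδ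
  have h10 : δ 1 0 = 3 := rfl
  have h11 : δ 1 1 = ℓ.1 := rfl
  have hdet := δ.det_coe
  rw [Matrix.det_fin_two] at hdet
  have h3 : ¬ (3 : ℤ) ∣ (ℓ.1 : ℤ) := by
    intro h
    have h' : 3 ∣ ℓ.1 := by exact_mod_cast h
    exact Nat.Prime.one_lt Nat.prime_three |>.ne' (Nat.dvd_one.1
      (ℓ.coprime ▸ Nat.dvd_gcd h' (dvd_refl 3))) |>.elim
  have hodd : Odd (((i + 1 : ℕ)) : ℤ) := by
    obtain ⟨a, rfl⟩ := hi
    exact ⟨a, by push_cast; ring⟩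
  have hcoe : ((((jacobiSym ℓ.1 3 : ℤ) : ℂ) • f : MF 3 (i + 1)) : ℍ → ℂ) =
      ((jacobiSym ℓ.1 3 : ℤ) : ℂ) • (f : ℍ → ℂ) := rfl
  rw [hcoe]
  have hcases : (ℓ.1 : ℤ) % 3 = 1 ∨ (ℓ.1 : ℤ) % 3 = 2 := by omega
  rcases hcases with h | h
  · have hm : δ ∈ Gamma1 3 := by
      rw [Gamma1_mem]
      have e11 : ((δ 1 1 : ℤ) : ZMod 3) = 1 := by
        rw [h11]
        have : ((ℓ.1 : ℤ) : ZMod 3) = ((1 : ℤ) : ZMod 3) :=
          (ZMod.intCast_eq_intCast_iff _ _ _).2 (by rw [Int.ModEq]; omega)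
        simpa using this
      have e10 : ((δ 1 0 : ℤ) : ZMod 3) = 0 := by rw [h10]; decide
      have e00 : ((δ 0 0 : ℤ) : ZMod 3) = 1 := by
        have h4 := congrArg (Int.cast : ℤ → ZMod 3) hdet
        push_cast at h4
        rw [e11, e10, mul_one, mul_zero, sub_zero] at h4
        exact h4
      exact ⟨e00, e11, e10⟩
    have h4 : (f : ℍ → ℂ) ∣[(((i + 1 : ℕ)) : ℤ)] δ = f := f.slash_action_eq' _ ⟨δ, hm, rfl⟩
    have h5 : jacobiSym ℓ.1 3 = 1 := by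
      have h7 := jacobiSym.mod_left (ℓ.1 : ℤ) 3
      rw [Nat.cast_ofNat, h] at h7
      rw [h7]
      exact jacobiSym.one_left 3
    rw [h4, h5]
    simp
  · have hm : -δ ∈ Gamma1 3 := by
      rw [Gamma1_mem]
      have e11 : ((δ 1 1 : ℤ) : ZMod 3) = -1 := by
        rw [h11]
        have : ((ℓ.1 : ℤ) : ZMod 3) = ((-1 : ℤ) : ZMod 3) :=
          (ZMod.intCast_eq_intCast_iff _ _ _).2 (by rw [Int.ModEq]; omega)
        simpa using this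
      have e10 : ((δ 1 0 : ℤ) : ZMod 3) = 0 := by rw [h10]; decide
      have e00 : ((δ 0 0 : ℤ) : ZMod 3) = -1 := by
        have h4 := congrArg (Int.cast : ℤ → ZMod 3) hdet
        push_cast at h4
        rw [e11, e10, mul_zero, sub_zero] at h4
        have h5 := congrArg Neg.neg h4
        rw [mul_neg_one, neg_neg] at h5
        exact h5
      refine ⟨?_, ?_, ?_⟩
      · simp [e00]
      · simp [e11]
      · simp [e10]
    have h4 : (f : ℍ → ℂ) ∣[(((i + 1 : ℕ)) : ℤ)] (-δ) = f := f.slash_action_eq' _ ⟨-δ, hm, rfl⟩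
    have h6 : -δ = (-1 : SL(2, ℤ)) * δ := by rw [neg_mul, one_mul]
    rw [h6, SlashAction.slash_mul, slash_neg_one _ hodd, SlashAction.neg_slash] at h4
    have h5 : jacobiSym ℓ.1 3 = -1 := by
      have h7 := jacobiSym.mod_left (ℓ.1 : ℤ) 3
      rw [Nat.cast_ofNat, h] at h7
      rw [h7]
      norm_num
    rw [h5, Int.cast_neg, Int.cast_one, neg_one_smul]
    exact neg_eq_iff_eq_neg.1 h4

end Vale.Agent.P022.H227
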