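import Vale.Agent.P022.H227.FchB
import Vale.Agent.P022.H916.Fld

/-!
P022, [FCH]: complex conjugations of `L` over a real place of `K` come from `G_K`.
-/

open NumberField

noncomputable section

namespace Vale.Agent.P022.H227

open Vale.Agent.P022 Vale.Agent.P022.C

theorem cjl {K L : Type} [Field K] [NumberField K] [Field L] [NumberField L] [Algebra K L]
    {j : K →+* Qb} {jL : L →+* Qb} {res : GK j →* (L ≃ₐ[K] L)} (D : H916.Dict j jL res)
    (φ : K →+* ℝ) (ρ : L →+* ℂ) (h : ∀ x : K, ρ (algebraMap K L x) = (φ x : ℂ)) :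
    ∃ g : GK j, CjI j φ g ∧ ∀ x : L, starRingEnd ℂ (ρ x) = ρ (res g x) := by
  obtain ⟨g, hg, hτ⟩ := CJL K L j jL D.comp φ ρ h
  exact ⟨g, hg, hτ (res g) (D.act g)⟩

end Vale.Agent.P022.H227
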