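import Mathlib

/-!
# P022-L3, chapter C, analytic half: Eichler integrals

For `f : ℍ → ℂ` holomorphic and `w : ℕ`, `F τ = ∫^τ f(z) (z - τ)^w dz` (`Eich w f F`).
-/

open Polynomial UpperHalfPlane Finset Filter Topology
open scoped MatrixGroups ModularForm Manifold

noncomputable section

namespace Vale.Agent.P022.H227

/-- `F τ = ∫^τ f(z) (z - τ)^w dz`: there are primitives `A j` of `τ^j f`, `j ≤ w`, with
`F τ = ∑ coeff_j ((X - τ)^w) A j τ`. -/
def Eich (w : ℕ) (f F : ℍ → ℂ) : Prop :=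
  ∃ A : ℕ → ℍ → ℂ,
    (∀ j ≤ w, ∀ τ : ℍ, HasDerivAt (A j ∘ ofComplex) ((τ : ℂ) ^ j * f τ) (τ : ℂ)) ∧
    ∀ τ : ℍ, F τ = ∑ i ∈ range (w + 1), ((X - C (τ : ℂ)) ^ w).coeff i * A i τ

/-- polynomial functions of degree at most `w` -/
def PolF (w : ℕ) (u : ℍ → ℂ) : Prop :=
  ∃ p : ℂ[X], p.natDegree ≤ w ∧ ∀ τ : ℍ, u τ = p.eval (τ : ℂ)

/-! ### primitives on the upper half plane -/

lemma mem_ball_iff (τ : ℂ) (r : ℝ) :
    τ ∈ Metric.ball ((r : ℂ) * Complex.I) r ↔ 0 < r ∧ τ.re ^ 2 + τ.im ^ 2 < 2 * r * τ.im := by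
  rw [Metric.mem_ball, Complex.dist_eq_re_im]
  constructor
  · intro h
    have hr : 0 < r := lt_of_le_of_lt (Real.sqrt_nonneg _) h
    refine ⟨hr, ?_⟩
    have h2 := (Real.sqrt_lt' hr).1 h
    simp at h2
    nlinarith
  · rintro ⟨hr, h⟩
    rw [Real.sqrt_lt' hr]
    simp
    nlinarith

lemma ball_sub {r s : ℝ} (h : r ≤ s) :
    Metric.ball ((r : ℂ) * Complex.I) r ⊆ Metric.ball ((s : ℂ) * Complex.I) s := by
  intro z hz
  rw [mem_ball_iff] at hz ⊢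
  have h1 : 0 < z.im := by
    by_contra hc
    push Not at hc
    nlinarith [sq_nonneg z.re, sq_nonneg z.im]
  exact ⟨hz.1.trans_le h, by nlinarith⟩

lemma ball_im {r : ℝ} {z : ℂ} (hz : z ∈ Metric.ball ((r : ℂ) * Complex.I) r) : 0 < z.im := by
  rw [mem_ball_iff] at hz
  by_contra hc
  push Not at hc
  nlinarith [sq_nonneg z.re, sq_nonneg z.im]

lemma exists_prim (f : ℍ → ℂ) (hf : MDiff f) :
    ∃ A : ℍ → ℂ, ∀ τ : ℍ, HasDerivAt (A ∘ ofComplex) (f τ) (τ : ℂ) := by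
  have hd : DifferentiableOn ℂ (f ∘ ofComplex) {z | 0 < z.im} := mdifferentiable_iff.1 hf
  have h1 : ∀ n : ℕ, ∃ g : ℂ → ℂ, g Complex.I = 0 ∧
      ∀ z ∈ Metric.ball (((n + 1 : ℕ) : ℝ) * Complex.I : ℂ) ((n + 1 : ℕ) : ℝ),
        HasDerivAt g ((f ∘ ofComplex) z) z := by
    intro n
    have h2 : DifferentiableOn ℂ (f ∘ ofComplex)
        (Metric.ball (((n + 1 : ℕ) : ℝ) * Complex.I : ℂ) ((n + 1 : ℕ) : ℝ)) :=
      hd.mono fun z hz => ball_im hz
    exact h2.isExactOn_ball.with_val_at Complex.I 0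
  choose g hg0 hg using h1
  have hI : ∀ n : ℕ, Complex.I ∈
      Metric.ball (((n + 1 : ℕ) : ℝ) * Complex.I : ℂ) ((n + 1 : ℕ) : ℝ) := by
    intro n
    rw [mem_ball_iff]
    have : (0 : ℝ) ≤ n := n.cast_nonneg
    push_cast
    simp
    constructor <;> linarith
  have hagree : ∀ n m : ℕ, n ≤ m →
      ∀ z ∈ Metric.ball (((n + 1 : ℕ) : ℝ) * Complex.I : ℂ) ((n + 1 : ℕ) : ℝ), g n z = g m z := by
    intro n m hnm z hz
    have hsub := ball_sub (r := ((n + 1 : ℕ) : ℝ)) (s := ((m + 1 : ℕ) : ℝ))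
      (by exact_mod_cast Nat.succ_le_succ hnm)
    refine Metric.isOpen_ball.eqOn_of_deriv_eq (convex_ball _ _).isPreconnected
      (fun x hx => (hg n x hx).differentiableAt.differentiableWithinAt)
      (fun x hx => (hg m x (hsub hx)).differentiableAt.differentiableWithinAt)
      (fun x hx => ?_) (hI n) (by rw [hg0, hg0]) hz
    rw [(hg n x hx).deriv, (hg m x (hsub hx)).deriv]
  have hex : ∀ τ : ℍ, ∃ n : ℕ,
      (τ : ℂ) ∈ Metric.ball (((n + 1 : ℕ) : ℝ) * Complex.I : ℂ) ((n + 1 : ℕ) : ℝ) := by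
    intro τ
    obtain ⟨n, hn⟩ := exists_nat_gt (((τ : ℂ).re ^ 2 + (τ : ℂ).im ^ 2) / (2 * (τ : ℂ).im))
    have him : 0 < (τ : ℂ).im := τ.im_pos
    refine ⟨n, ?_⟩
    rw [mem_ball_iff]
    rw [div_lt_iff₀ (by positivity)] at hn
    push_cast
    have : (0 : ℝ) ≤ n := n.cast_nonneg
    constructor
    · linarith
    · nlinarith [hn, him]
  choose N hN using hex
  refine ⟨fun τ => g (N τ) τ, fun τ => ?_⟩
  have h3 := hg (N τ) τ (hN τ)
  rw [Function.comp_apply, ofComplex_apply] at h3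
  refine h3.congr_of_eventuallyEq ?_
  filter_upwards [Metric.isOpen_ball.mem_nhds (hN τ)] with z hz
  have him := ball_im hz
  have hz' : ((ofComplex z : ℍ) : ℂ) = z := by
    rw [ofComplex_apply_of_im_pos him]
  have hNz := hN (ofComplex z)
  simp only [Function.comp_apply]
  rw [hz'] at hNz ⊢
  rcases le_total (N (ofComplex z)) (N τ) with h | h
  · exact hagree _ _ h z hNz
  · exact (hagree _ _ h z hz).symm

lemma exists_eich (w : ℕ) {f : ℍ → ℂ} (hf : MDiff f) : ∃ F, Eich w f F := by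
  have h1 : ∀ j : ℕ, ∃ A : ℍ → ℂ, ∀ τ : ℍ,
      HasDerivAt (A ∘ ofComplex) ((τ : ℂ) ^ j * f τ) (τ : ℂ) := by
    intro j
    refine exists_prim (fun τ => (τ : ℂ) ^ j * f τ) ?_
    exact (mdifferentiable_coe.pow j).mul hf
  choose A hA using h1
  exact ⟨_, A, fun j _ => hA j, fun τ => rfl⟩

lemma coeff_pow' (w i : ℕ) (z : ℂ) :
    ((X - C z) ^ w).coeff i = (-z) ^ (w - i) * (w.choose i : ℂ) := by
  rw [sub_eq_add_neg, ← C_neg, coeff_X_add_C_pow]

lemma diff_coeff (w i : ℕ) (τ : ℂ) :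
    HasDerivAt (fun z : ℂ => ((X - C z) ^ w).coeff i)
      (-(w : ℂ) * ((X - C τ) ^ (w - 1)).coeff i) τ := by
  have h0 : (fun z : ℂ => ((X - C z) ^ w).coeff i) = fun z => (-z) ^ (w - i) * (w.choose i : ℂ) := by
    funext z
    rw [coeff_pow']
  rw [h0, coeff_pow']
  have h1 : HasDerivAt (fun z : ℂ => (-z) ^ (w - i) * (w.choose i : ℂ))
      (((w - i : ℕ) : ℂ) * (-τ) ^ (w - i - 1) * (-1) * (w.choose i : ℂ)) τ :=
    (((hasDerivAt_neg τ).fun_pow (w - i)).mul_const (w.choose i : ℂ))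
  refine h1.congr_deriv ?_
  rcases Nat.lt_or_ge i w with hi | hi
  · obtain ⟨m, rfl⟩ : ∃ m, w = i + 1 + m := ⟨w - (i + 1), by omega⟩
    have e1 : i + 1 + m - 1 - i = m := by omega
    have e2 : i + 1 + m - i = m + 1 := by omega
    have e3 : i + 1 + m - 1 = i + m := by omega
    rw [e1, e2, e3]
    have h2 : ((i + 1 + m).choose i : ℂ) * ((m : ℂ) + 1) = ((i : ℂ) + 1 + m) * ((i + m).choose i : ℂ) := by
      have h3 := Nat.add_one_mul_choose_eq (i + m) m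
      have h4 : (i + 1 + m).choose i = (i + m + 1).choose (m + 1) := by
        rw [← Nat.choose_symm_of_eq_add (n := i + m + 1) (a := i) (b := m + 1) (by ring)]
        congr 1
        ring
      have h5 : (i + m).choose i = (i + m).choose m := Nat.choose_symm_add
      rw [h4, h5]
      have := congrArg (Nat.cast (R := ℂ)) h3
      push_cast at this
      linear_combination -this
    simp only [Nat.add_sub_cancel, Nat.cast_add, Nat.cast_one]
    linear_combination (-(-τ) ^ m) * h2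
  · have : w - i = 0 := by omega
    rw [this]
    rcases Nat.eq_zero_or_pos w with rfl | hw
    · simp
    · rw [Nat.choose_eq_zero_of_lt (by omega : w - 1 < i)]
      simp

/-! ### linearity -/

lemma Eich.add {w : ℕ} {f g F G : ℍ → ℂ} (hF : Eich w f F) (hG : Eich w g G) :
    Eich w (f + g) (F + G) := by
  obtain ⟨A, hA, hF⟩ := hF
  obtain ⟨B, hB, hG⟩ := hG
  refine ⟨fun j => A j + B j, fun j hj τ => ?_, fun τ => ?_⟩
  · refine ((hA j hj τ).add (hB j hj τ)).congr_deriv ?_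
    simp only [Pi.add_apply]
    ring
  · simp only [Pi.add_apply, hF, hG, mul_add, sum_add_distrib]

lemma Eich.smul {w : ℕ} {f F : ℍ → ℂ} (c : ℂ) (hF : Eich w f F) : Eich w (c • f) (c • F) := by
  obtain ⟨A, hA, hF⟩ := hF
  refine ⟨fun j => c • A j, fun j hj τ => ?_, fun τ => ?_⟩
  · refine ((hA j hj τ).const_smul c).congr_deriv ?_
    simp only [Pi.smul_apply, smul_eq_mul]
    ring
  · simp only [Pi.smul_apply, hF, smul_eq_mul, mul_sum]
    exact sum_congr rfl fun i _ => by ring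

lemma Eich.neg {w : ℕ} {f F : ℍ → ℂ} (hF : Eich w f F) : Eich w (-f) (-F) := by
  simpa using hF.smul (-1)

lemma Eich.sub {w : ℕ} {f g F G : ℍ → ℂ} (hF : Eich w f F) (hG : Eich w g G) :
    Eich w (f - g) (F - G) := by
  simpa only [sub_eq_add_neg] using hF.add hG.neg

lemma Eich.sum {w : ℕ} {ι : Type*} (s : Finset ι) {f F : ι → ℍ → ℂ}
    (h : ∀ i ∈ s, Eich w (f i) (F i)) : Eich w (∑ i ∈ s, f i) (∑ i ∈ s, F i) := by
  classical
  induction s using Finset.induction_on with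
  | empty =>
    refine ⟨fun _ _ => 0, fun j _ τ => ?_, fun τ => by simp⟩
    simpa [Function.comp_def] using hasDerivAt_const (τ : ℂ) (0 : ℂ)
  | insert a s ha ih =>
    rw [sum_insert ha, sum_insert ha]
    exact (h a (mem_insert_self a s)).add (ih fun i hi => h i (mem_insert_of_mem hi))

lemma hasDerivAt_iff_mdiff {A : ℍ → ℂ} (h : ∀ τ : ℍ, DifferentiableAt ℂ (A ∘ ofComplex) (τ : ℂ)) :
    MDiff A := by
  rw [mdifferentiable_iff]
  intro z hz
  exact (h ⟨z, hz⟩).differentiableWithinAt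

/-- the intermediate integral `∫^τ f(z) (z - τ)^m dz`, `m ≤ w` -/
def Fm (A : ℕ → ℍ → ℂ) (m : ℕ) (τ : ℍ) : ℂ :=
  ∑ i ∈ range (m + 1), ((X - C (τ : ℂ)) ^ m).coeff i * A i τ

lemma sum_coeff (m : ℕ) (hm : m ≠ 0) (τ : ℂ) :
    ∑ i ∈ range (m + 1), ((X - C τ) ^ m).coeff i * τ ^ i = 0 := by
  have h : ((X - C τ) ^ m).eval τ = 0 := by simp [hm]
  rw [eval_eq_sum_range' (n := m + 1)] at h
  · exact h
  · calc ((X - C τ) ^ m).natDegree ≤ m * (X - C τ).natDegree := natDegree_pow_le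
      _ = m := by rw [natDegree_X_sub_C, mul_one]
      _ < m + 1 := Nat.lt_succ_self m

lemma Fm_deriv {w : ℕ} {f : ℍ → ℂ} {A : ℕ → ℍ → ℂ}
    (hA : ∀ j ≤ w, ∀ τ : ℍ, HasDerivAt (A j ∘ ofComplex) ((τ : ℂ) ^ j * f τ) (τ : ℂ))
    {m : ℕ} (hm : m + 1 ≤ w) (τ : ℍ) :
    HasDerivAt (Fm A (m + 1) ∘ ofComplex) (-((m + 1 : ℕ) : ℂ) * Fm A m τ) (τ : ℂ) := by
  have h1 : ∀ i ∈ range (m + 1 + 1), HasDerivAt
      (fun z : ℂ => ((X - C z) ^ (m + 1)).coeff i * (A i ∘ ofComplex) z)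
      (-((m + 1 : ℕ) : ℂ) * ((X - C (τ : ℂ)) ^ m).coeff i * (A i ∘ ofComplex) τ +
        ((X - C (τ : ℂ)) ^ (m + 1)).coeff i * ((τ : ℂ) ^ i * f τ)) (τ : ℂ) := by
    intro i hi
    exact (diff_coeff (m + 1) i τ).mul (hA i (by have := mem_range.1 hi; omega) τ)
  have h2 := HasDerivAt.fun_sum h1
  have h3 : HasDerivAt (Fm A (m + 1) ∘ ofComplex)
      (∑ i ∈ range (m + 1 + 1), (-((m + 1 : ℕ) : ℂ) * ((X - C (τ : ℂ)) ^ m).coeff i *
        (A i ∘ ofComplex) τ + ((X - C (τ : ℂ)) ^ (m + 1)).coeff i * ((τ : ℂ) ^ i * f τ)))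
      (τ : ℂ) := by
    refine h2.congr_of_eventuallyEq ?_
    filter_upwards [isOpen_upperHalfPlaneSet.mem_nhds τ.im_pos] with z hz
    have hz' : ((ofComplex z : ℍ) : ℂ) = z := by
      rw [ofComplex_apply_of_im_pos hz]
    simp only [Function.comp_apply, Fm, hz']
  refine h3.congr_deriv ?_
  rw [sum_add_distrib]
  have h4 : ∑ i ∈ range (m + 1 + 1), ((X - C (τ : ℂ)) ^ (m + 1)).coeff i * ((τ : ℂ) ^ i * f τ) = 0 := by
    have := sum_coeff (m + 1) (Nat.succ_ne_zero m) (τ : ℂ)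
    calc _ = (∑ i ∈ range (m + 1 + 1), ((X - C (τ : ℂ)) ^ (m + 1)).coeff i * (τ : ℂ) ^ i) * f τ := by
          rw [sum_mul]
          exact sum_congr rfl fun i _ => by ring
      _ = 0 := by rw [this, zero_mul]
  rw [h4, add_zero, sum_range_succ]
  have h5 : ((X - C (τ : ℂ)) ^ m).coeff (m + 1) = 0 := by
    rw [coeff_pow', Nat.choose_succ_self]
    simp
  rw [h5, mul_zero, zero_mul, add_zero, Fm, mul_sum]
  refine sum_congr rfl fun i _ => ?_
  simp only [Function.comp_apply, ofComplex_apply]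
  ring

lemma Fm_mdiff {w : ℕ} {f : ℍ → ℂ} {A : ℕ → ℍ → ℂ}
    (hA : ∀ j ≤ w, ∀ τ : ℍ, HasDerivAt (A j ∘ ofComplex) ((τ : ℂ) ^ j * f τ) (τ : ℂ))
    {m : ℕ} (hm : m ≤ w) : MDiff (Fm A m) := by
  refine hasDerivAt_iff_mdiff fun τ => ?_
  rcases m with _ | m
  · have : Fm A 0 = A 0 := by
      funext τ
      simp [Fm]
    rw [this]
    exact (hA 0 (Nat.zero_le _) τ).differentiableAt
  · exact (Fm_deriv hA hm τ).differentiableAt

lemma Eich.mdiff {w : ℕ} {f F : ℍ → ℂ} (hF : Eich w f F) : MDiff F := by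
  obtain ⟨A, hA, hF⟩ := hF
  have : F = Fm A w := funext hF
  rw [this]
  exact Fm_mdiff hA le_rfl

lemma deriv_zero {G : ℍ → ℂ} (hG : ∀ τ, G τ = 0) {c : ℍ → ℂ}
    (h : ∀ τ : ℍ, HasDerivAt (G ∘ ofComplex) (c τ) (τ : ℂ)) (τ : ℍ) : c τ = 0 := by
  have h1 : G = fun _ => 0 := funext hG
  have h2 := h τ
  rw [h1] at h2
  exact h2.unique (hasDerivAt_const (τ : ℂ) (0 : ℂ))

/-- `F = 0` implies `f = 0`. -/
lemma Eich.eq_zero_of_zero {w : ℕ} {f : ℍ → ℂ} (hF : Eich w f 0) : f = 0 := by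
  obtain ⟨A, hA, hF⟩ := hF
  have h1 : ∀ m ≤ w, ∀ τ, Fm A (w - m) τ = 0 := by
    intro m
    induction m with
    | zero => intro _ τ; exact (hF τ).symm
    | succ m ih =>
      intro hm τ
      have h2 := ih (by omega)
      have e : w - m = (w - (m + 1)) + 1 := by omega
      rw [e] at h2
      have h3 := deriv_zero h2 (fun τ => Fm_deriv hA (m := w - (m + 1)) (by omega) τ) τ
      have h4 : -((w - (m + 1) + 1 : ℕ) : ℂ) ≠ 0 :=
        neg_ne_zero.2 (Nat.cast_ne_zero.2 (Nat.succ_ne_zero (w - (m + 1))))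
      exact (mul_eq_zero.1 h3).resolve_left h4
  have h5 := h1 w le_rfl
  rw [Nat.sub_self] at h5
  funext τ
  have h6 : ∀ τ, A 0 τ = 0 := fun τ => by simpa [Fm] using h5 τ
  simpa using deriv_zero h6 (fun τ => hA 0 (Nat.zero_le _) τ) τ

/-! ### uniqueness modulo polynomials -/

lemma eqConst_of_deriv {G : ℍ → ℂ} (h : ∀ τ : ℍ, HasDerivAt (G ∘ ofComplex) 0 (τ : ℂ)) :
    ∃ c : ℂ, ∀ τ, G τ = c := by
  refine ⟨G I, fun τ => ?_⟩
  have hO : IsOpen {z : ℂ | 0 < z.im} := isOpen_upperHalfPlaneSet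
  have hc : IsPreconnected {z : ℂ | 0 < z.im} := (convex_halfSpace_im_gt 0).isPreconnected
  have h1 : ∀ z ∈ {z : ℂ | 0 < z.im}, HasDerivAt (G ∘ ofComplex) 0 z := fun z hz => h ⟨z, hz⟩
  have h2 := hO.eqOn_of_deriv_eq (f := G ∘ ofComplex) (g := fun _ => G I) hc
    (fun z hz => (h1 z hz).differentiableAt.differentiableWithinAt)
    (differentiableOn_const _) (fun z hz => by simp [(h1 z hz).deriv])
    (x := ((I : ℍ) : ℂ)) (I : ℍ).im_pos
    (by rw [Function.comp_apply, ofComplex_apply])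
  have h3 := h2 τ.im_pos
  simpa [ofComplex_apply] using h3

lemma Eich.polF_of_zero {w : ℕ} {F : ℍ → ℂ} (hF : Eich w 0 F) : PolF w F := by
  obtain ⟨A, hA, hF⟩ := hF
  have h1 : ∀ j, ∃ c : ℂ, j ≤ w → ∀ τ, A j τ = c := by
    intro j
    by_cases hj : j ≤ w
    · obtain ⟨c, hc⟩ := eqConst_of_deriv (G := A j) (fun τ => by simpa using hA j hj τ)
      exact ⟨c, fun _ => hc⟩
    · exact ⟨0, fun h => absurd h hj⟩
  choose c hc using h1
  refine ⟨∑ i ∈ range (w + 1), C (c i * (w.choose i : ℂ)) * (-X) ^ (w - i), ?_, fun τ => ?_⟩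
  · refine natDegree_sum_le_of_forall_le _ _ fun i _ => ?_
    refine (natDegree_C_mul_le _ _).trans ((natDegree_pow_le).trans ?_)
    rw [natDegree_neg, natDegree_X, mul_one]
    exact Nat.sub_le _ _
  · rw [hF, eval_finsetSum]
    refine sum_congr rfl fun i hi => ?_
    rw [hc i (by have := mem_range.1 hi; omega), coeff_pow']
    simp
    ring

lemma eich_of_polF {w : ℕ} {P : ℍ → ℂ} (hP : PolF w P) : Eich w 0 P := by
  obtain ⟨p, hp, hP⟩ := hP
  refine ⟨fun i _ => p.coeff (w - i) * ((w.choose i : ℂ) * (-1) ^ (w - i))⁻¹, fun j _ τ => ?_,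
    fun τ => ?_⟩
  · simpa [Function.comp_def] using hasDerivAt_const (τ : ℂ) _
  · rw [hP, eval_eq_sum_range' (n := w + 1) (by omega), ← sum_range_reflect]
    refine sum_congr rfl fun i hi => ?_
    have hi' : i ≤ w := by have := mem_range.1 hi; omega
    have e : w + 1 - 1 - i = w - i := by omega
    have hc : (w.choose i : ℂ) ≠ 0 := by exact_mod_cast (Nat.choose_pos hi').ne'
    have h1 : ((-1 : ℂ)) ^ (w - i) ≠ 0 := pow_ne_zero _ (by norm_num)
    rw [e, coeff_pow', neg_pow (τ : ℂ)]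
    field_simp

lemma Eich.sub_pol {w : ℕ} {f F G : ℍ → ℂ} (hF : Eich w f F) (hG : Eich w f G) :
    PolF w (F - G) := by
  have h := hF.sub hG
  rw [sub_self] at h
  exact h.polF_of_zero

lemma Eich.add_pol {w : ℕ} {f F P : ℍ → ℂ} (hF : Eich w f F) (hP : PolF w P) :
    Eich w f (F + P) := by
  have h := hF.add (eich_of_polF hP)
  rwa [add_zero] at h

lemma PolF.neg {w : ℕ} {P : ℍ → ℂ} (hP : PolF w P) : PolF w (-P) := by
  obtain ⟨p, hp, hP⟩ := hP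
  exact ⟨-p, by rwa [natDegree_neg], fun τ => by simp [hP]⟩

/-! ### the slash action -/

/-- `(d X - b)^j (a - c X)^(w - j)` -/
def qp (α : GL (Fin 2) ℝ) (w j : ℕ) : ℂ[X] :=
  (C ((α 1 1 : ℝ) : ℂ) * X - C ((α 0 1 : ℝ) : ℂ)) ^ j *
    (C ((α 0 0 : ℝ) : ℂ) - C ((α 1 0 : ℝ) : ℂ) * X) ^ (w - j)

lemma qp_natDegree (α : GL (Fin 2) ℝ) {w j : ℕ} (hj : j ≤ w) : (qp α w j).natDegree ≤ w := by
  refine natDegree_mul_le.trans ?_
  have h1 : (C ((α 1 1 : ℝ) : ℂ) * X - C ((α 0 1 : ℝ) : ℂ) : ℂ[X]).natDegree ≤ 1 := by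
    compute_degree
  have h2 : (C ((α 0 0 : ℝ) : ℂ) - C ((α 1 0 : ℝ) : ℂ) * X : ℂ[X]).natDegree ≤ 1 := by
    compute_degree
  have h3 := (natDegree_pow_le (p := (C ((α 1 1 : ℝ) : ℂ) * X - C ((α 0 1 : ℝ) : ℂ) : ℂ[X])) (n := j))
  have h4 := (natDegree_pow_le (p := (C ((α 0 0 : ℝ) : ℂ) - C ((α 1 0 : ℝ) : ℂ) * X : ℂ[X]))
    (n := w - j))
  have h5 := Nat.mul_le_mul_left j h1
  have h6 := Nat.mul_le_mul_left (w - j) h2
  omega

lemma coe_smul' (α : GL (Fin 2) ℝ) (hα : 0 < α.val.det) (τ : ℍ) :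
    ((α • τ : ℍ) : ℂ) * denom α τ = (α 0 0 : ℝ) * (τ : ℂ) + (α 0 1 : ℝ) := by
  have h := coe_smul_of_det_pos (g := α) hα τ
  rw [h, num, div_mul_cancel₀ _ (denom_ne_zero α τ)]

lemma qp_eval (α : GL (Fin 2) ℝ) (hα : 0 < α.val.det) (w j : ℕ) (hj : j ≤ w) (τ : ℍ) :
    (qp α w j).eval ((α • τ : ℍ) : ℂ) * denom α τ ^ w = (α.val.det : ℂ) ^ w * (τ : ℂ) ^ j := by
  have h0 := coe_smul' α hα τ
  have hd : (α.val.det : ℂ) = (α 0 0 : ℝ) * (α 1 1 : ℝ) - (α 0 1 : ℝ) * (α 1 0 : ℝ) := by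
    rw [Matrix.det_fin_two]
    push_cast
    rfl
  have hden : denom α τ = (α 1 0 : ℝ) * (τ : ℂ) + (α 1 1 : ℝ) := rfl
  have h1 : (((α 1 1 : ℝ) : ℂ) * ((α • τ : ℍ) : ℂ) - ((α 0 1 : ℝ) : ℂ)) * denom α τ
      = (α.val.det : ℂ) * τ := by
    rw [sub_mul, mul_assoc, h0, hd, hden]
    ring
  have h2 : (((α 0 0 : ℝ) : ℂ) - ((α 1 0 : ℝ) : ℂ) * ((α • τ : ℍ) : ℂ)) * denom α τ
      = (α.val.det : ℂ) := by
    rw [sub_mul, mul_assoc, h0, hd, hden]
    ring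
  have e : w = j + (w - j) := by omega
  have h3 : (qp α w j).eval ((α • τ : ℍ) : ℂ) =
      (((α 1 1 : ℝ) : ℂ) * ((α • τ : ℍ) : ℂ) - ((α 0 1 : ℝ) : ℂ)) ^ j *
      (((α 0 0 : ℝ) : ℂ) - ((α 1 0 : ℝ) : ℂ) * ((α • τ : ℍ) : ℂ)) ^ (w - j) := by
    simp [qp]
  calc (qp α w j).eval ((α • τ : ℍ) : ℂ) * denom α τ ^ w
      = (qp α w j).eval ((α • τ : ℍ) : ℂ) * (denom α τ ^ j * denom α τ ^ (w - j)) := by
        rw [← pow_add, ← e]
    _ = ((((α 1 1 : ℝ) : ℂ) * ((α • τ : ℍ) : ℂ) - ((α 0 1 : ℝ) : ℂ)) * denom α τ) ^ j *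
        ((((α 0 0 : ℝ) : ℂ) - ((α 1 0 : ℝ) : ℂ) * ((α • τ : ℍ) : ℂ)) * denom α τ) ^ (w - j) := by
        rw [h3, mul_pow, mul_pow]
        ring
    _ = (α.val.det : ℂ) ^ w * (τ : ℂ) ^ j := by
        have e2 : (α.val.det : ℂ) ^ w = (α.val.det : ℂ) ^ j * (α.val.det : ℂ) ^ (w - j) := by
          rw [← pow_add, ← e]
        rw [h1, h2, mul_pow, e2]
        ring

lemma qp_sum (α : GL (Fin 2) ℝ) (hα : 0 < α.val.det) (w : ℕ) (τ : ℍ) :
    ∑ j ∈ range (w + 1), C (((X - C (τ : ℂ)) ^ w).coeff j) * qp α w j =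
      C (denom α τ ^ w) * (X - C ((α • τ : ℍ) : ℂ)) ^ w := by
  have h0 := coe_smul' α hα τ
  have hden : denom α τ = (α 1 0 : ℝ) * (τ : ℂ) + (α 1 1 : ℝ) := rfl
  set U : ℂ[X] := C ((α 1 1 : ℝ) : ℂ) * X - C ((α 0 1 : ℝ) : ℂ) with hU
  set V : ℂ[X] := C ((α 0 0 : ℝ) : ℂ) - C ((α 1 0 : ℝ) : ℂ) * X with hV
  have h1 : U + (-C (τ : ℂ)) * V = C (denom α τ) * (X - C ((α • τ : ℍ) : ℂ)) := by
    have h2 : C (denom α τ) * (X - C ((α • τ : ℍ) : ℂ)) =
        C (denom α τ) * X - C (((α • τ : ℍ) : ℂ) * denom α τ) := by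
      rw [C_mul]
      ring
    rw [h2, h0, hden, hU, hV]
    simp only [C_add, C_mul]
    ring
  calc _ = ∑ j ∈ range (w + 1), U ^ j * ((-C (τ : ℂ)) * V) ^ (w - j) * ((w.choose j : ℕ) : ℂ[X]) := by
        refine sum_congr rfl fun j _ => ?_
        rw [coeff_pow', qp, ← hU, ← hV, mul_pow (-C (τ : ℂ)) V, C_mul, C_pow, C_neg, map_natCast]
        ring
    _ = (U + (-C (τ : ℂ)) * V) ^ w := (add_pow _ _ _).symm
    _ = _ := by rw [h1, mul_pow, C_pow]

theorem Eich.comp {w : ℕ} {f F : ℍ → ℂ} (hF : Eich w f F) (α : GL (Fin 2) ℝ)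
    (hα : 0 < α.val.det) :
    Eich w (fun τ => (α.val.det : ℂ) ^ (w + 1) * (denom α τ ^ (w + 2))⁻¹ * f (α • τ))
      (fun τ => denom α τ ^ w * F (α • τ)) := by
  obtain ⟨A, hA, hF⟩ := hF
  refine ⟨fun j τ => ∑ i ∈ range (w + 1), (qp α w j).coeff i * A i (α • τ), fun j hj τ => ?_,
    fun τ => ?_⟩
  · have h1 : ∀ i ∈ range (w + 1), HasDerivAt
        (fun z : ℂ => (qp α w j).coeff i * A i (α • ofComplex z))
        ((qp α w j).coeff i * ((((α • τ : ℍ) : ℂ) ^ i * f (α • τ)) *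
          (α.val.det / denom α τ ^ 2))) (τ : ℂ) := by
      intro i hi
      have h2 := (hasStrictDerivAt_smul hα τ).hasDerivAt
      have h3 := hA i (by have := mem_range.1 hi; omega) (α • τ)
      have h4 : HasDerivAt (A i ∘ ofComplex) (((α • τ : ℍ) : ℂ) ^ i * f (α • τ))
          ((fun z : ℂ => ((α • ofComplex z : ℍ) : ℂ)) (τ : ℂ)) := by
        simpa [ofComplex_apply] using h3
      have h5 := (h4.comp (τ : ℂ) h2).const_mul ((qp α w j).coeff i)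
      refine h5.congr_of_eventuallyEq (Eventually.of_forall fun z => ?_)
      simp [Function.comp_def, ofComplex_apply]
    have h2 := HasDerivAt.fun_sum h1
    refine (h2.congr_of_eventuallyEq (Eventually.of_forall fun z => rfl)).congr_deriv ?_
    have h3 := qp_eval α hα w j hj τ
    have hden := denom_ne_zero α τ
    rw [eval_eq_sum_range' (n := w + 1) (by have := qp_natDegree α hj; omega)] at h3
    have h4 : ∑ i ∈ range (w + 1), (qp α w j).coeff i * ((((α • τ : ℍ) : ℂ) ^ i * f (α • τ)) *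
          (α.val.det / denom α τ ^ 2)) =
        (∑ i ∈ range (w + 1), (qp α w j).coeff i * ((α • τ : ℍ) : ℂ) ^ i) *
          (f (α • τ) * (α.val.det / denom α τ ^ 2)) := by
      rw [sum_mul]
      exact sum_congr rfl fun i _ => by ring
    rw [h4]
    have h5 : (∑ i ∈ range (w + 1), (qp α w j).coeff i * ((α • τ : ℍ) : ℂ) ^ i) =
        (α.val.det : ℂ) ^ w * (τ : ℂ) ^ j * (denom α τ ^ w)⁻¹ := by
      rw [← h3, mul_assoc, mul_inv_cancel₀ (pow_ne_zero _ hden), mul_one]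
    rw [h5]
    field_simp
    ring
  · have h1 := qp_sum α hα w τ
    have h2 : ∀ i, ∑ j ∈ range (w + 1), ((X - C (τ : ℂ)) ^ w).coeff j * (qp α w j).coeff i =
        denom α τ ^ w * ((X - C ((α • τ : ℍ) : ℂ)) ^ w).coeff i := by
      intro i
      have h3 := congrArg (fun p => coeff p i) h1
      simp only [finsetSum_coeff, coeff_C_mul] at h3
      exact h3
    simp only [mul_sum]
    rw [sum_comm, hF, mul_sum]
    refine sum_congr rfl fun i _ => ?_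
    rw [← mul_assoc, ← h2, sum_mul]
    exact sum_congr rfl fun j _ => by ring

/-- the slash form of `Eich.comp` -/
theorem Eich.slash {w : ℕ} {f F : ℍ → ℂ} (hF : Eich w f F) (α : GL (Fin 2) ℝ)
    (hα : 0 < α.val.det) :
    Eich w (f ∣[((w : ℤ) + 2)] α) (((α.val.det : ℂ) ^ (w + 1)) • (F ∣[(-(w : ℤ))] α)) := by
  have h := hF.comp α hα
  have hα' : 0 < α.det.val := hα
  have hd : |α.det.val| = α.val.det := abs_of_pos hα
  have hd0 : (α.val.det : ℂ) ≠ 0 := by exact_mod_cast hα.ne'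
  have hσ : ∀ z : ℂ, σ α z = z := fun z => by
    rw [σ, if_pos hα', ContinuousAlgEquiv.refl_apply]
  convert h using 1
  · funext τ
    have hden := denom_ne_zero α τ
    rw [ModularForm.slash_apply, hσ, hd]
    have e1 : ((w : ℤ) + 2 - 1) = ((w + 1 : ℕ) : ℤ) := by push_cast; ring
    have e2 : (-((w : ℤ) + 2)) = -((w + 2 : ℕ) : ℤ) := by push_cast; ring
    rw [e1, e2, zpow_natCast, zpow_neg, zpow_natCast]
    ring
  · funext τ
    have hden := denom_ne_zero α τ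
    rw [Pi.smul_apply, ModularForm.slash_apply, hσ, hd, neg_neg, smul_eq_mul]
    have e1 : (-(w : ℤ) - 1) = -((w + 1 : ℕ) : ℤ) := by push_cast; ring
    rw [e1, zpow_neg, zpow_natCast, zpow_natCast]
    field_simp

end Vale.Agent.P022.H227
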