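import Vale.Agent.P022.H227.Eich

/-!
# P022-L3, chapter C, analytic half, part 2: growth and injectivity
-/

open Polynomial UpperHalfPlane Finset Filter Topology
open scoped MatrixGroups ModularForm Manifold

noncomputable section

namespace Vale.Agent.P022.H227

/-- growth of a primitive -/
lemma prim_growth {A g : ℍ → ℂ} (hA : ∀ τ : ℍ, HasDerivAt (A ∘ ofComplex) (g τ) (τ : ℂ))
    {M A0 : ℝ} (hA0 : 0 < A0) (hM : 0 ≤ M) (j : ℕ)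
    (hg : ∀ τ : ℍ, A0 ≤ τ.im → ‖g τ‖ ≤ M * (1 + ‖(τ : ℂ)‖) ^ j) :
    ∃ C : ℝ, 0 ≤ C ∧ ∀ τ : ℍ, A0 ≤ τ.im → ‖A τ‖ ≤ C * (1 + ‖(τ : ℂ)‖) ^ (j + 1) := by
  set τ0 : ℍ := ⟨(A0 : ℂ) * Complex.I, by simpa using hA0⟩ with hτ0
  have hτ0c : (τ0 : ℂ) = (A0 : ℂ) * Complex.I := rfl
  have him0 : (τ0 : ℂ).im = A0 := by rw [hτ0c]; simp
  have hn0 : ‖(τ0 : ℂ)‖ = A0 := by
    rw [hτ0c]
    simp [abs_of_pos hA0]
  refine ⟨‖A τ0‖ + 2 * M, by positivity, fun τ hτ => ?_⟩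
  set R := ‖(τ : ℂ)‖ with hR
  have hR0 : 0 ≤ R := norm_nonneg _
  have hAR : A0 ≤ R := hτ.trans ((le_abs_self _).trans (Complex.abs_im_le_norm (τ : ℂ)))
  set S : Set ℂ := {z | A0 ≤ z.im} ∩ Metric.closedBall 0 R with hS
  have hSc : Convex ℝ S := (convex_halfSpace_im_ge A0).inter (convex_closedBall 0 R)
  have h1 : ∀ z ∈ S, HasDerivWithinAt (A ∘ ofComplex) (g (ofComplex z)) S z := by
    intro z hz
    have hz' : 0 < z.im := hA0.trans_le hz.1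
    have h2 := hA (ofComplex z)
    have e : ((ofComplex z : ℍ) : ℂ) = z := by rw [ofComplex_apply_of_im_pos hz']
    rw [e] at h2
    exact h2.hasDerivWithinAt
  have h2 : ∀ z ∈ S, ‖g (ofComplex z)‖ ≤ M * (1 + R) ^ j := by
    intro z hz
    have hz' : 0 < z.im := hA0.trans_le hz.1
    have e : ((ofComplex z : ℍ) : ℂ) = z := by rw [ofComplex_apply_of_im_pos hz']
    have h3 := hg (ofComplex z) (by
      change A0 ≤ ((ofComplex z : ℍ) : ℂ).im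
      rw [e]; exact hz.1)
    rw [e] at h3
    have h4 : ‖z‖ ≤ R := by simpa using hz.2
    refine h3.trans (mul_le_mul_of_nonneg_left ?_ hM)
    exact pow_le_pow_left₀ (by positivity) (by linarith) j
  have hm0 : (τ0 : ℂ) ∈ S := ⟨by rw [Set.mem_ofPred_eq, him0], by simpa [hn0] using hAR⟩
  have hm1 : (τ : ℂ) ∈ S := ⟨hτ, by simp [hR]⟩
  have h3 := hSc.norm_image_sub_le_of_norm_hasDerivWithin_le h1 h2 hm0 hm1
  simp only [Function.comp_apply, ofComplex_apply] at h3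
  have h4 : ‖(τ : ℂ) - τ0‖ ≤ 2 * (1 + R) := by
    calc ‖(τ : ℂ) - τ0‖ ≤ ‖(τ : ℂ)‖ + ‖(τ0 : ℂ)‖ := norm_sub_le _ _
      _ ≤ 2 * (1 + R) := by rw [hn0]; linarith
  have h5 : ‖A τ‖ ≤ ‖A τ0‖ + ‖A τ - A τ0‖ := by
    have := norm_add_le (A τ0) (A τ - A τ0)
    simpa using this
  have h6 : 1 ≤ (1 + R) ^ (j + 1) := one_le_pow₀ (by linarith)
  calc ‖A τ‖ ≤ ‖A τ0‖ + M * (1 + R) ^ j * (2 * (1 + R)) := by
        refine h5.trans (add_le_add le_rfl (h3.trans ?_))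
        exact mul_le_mul_of_nonneg_left h4 (by positivity)
    _ = ‖A τ0‖ * 1 + 2 * M * (1 + R) ^ (j + 1) := by ring
    _ ≤ ‖A τ0‖ * (1 + R) ^ (j + 1) + 2 * M * (1 + R) ^ (j + 1) :=
        add_le_add (mul_le_mul_of_nonneg_left h6 (norm_nonneg _)) le_rfl
    _ = _ := by ring

lemma coeff_bound (w i : ℕ) (z : ℂ) : ‖((X - C z) ^ w).coeff i‖ ≤ 2 ^ w * (1 + ‖z‖) ^ w := by
  rw [coeff_pow', norm_mul, norm_pow, norm_neg, Complex.norm_natCast]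
  have h1 : ‖z‖ ^ (w - i) ≤ (1 + ‖z‖) ^ w :=
    (pow_le_pow_left₀ (norm_nonneg _) (by linarith) _).trans
      (pow_le_pow_right₀ (by linarith [norm_nonneg z]) (Nat.sub_le _ _))
  have h2 : (w.choose i : ℝ) ≤ 2 ^ w := by
    exact_mod_cast Nat.choose_le_two_pow w i
  calc ‖z‖ ^ (w - i) * (w.choose i : ℝ) ≤ (1 + ‖z‖) ^ w * 2 ^ w :=
        mul_le_mul h1 h2 (by positivity) (by positivity)
    _ = _ := by ring

/-- polynomial growth of an Eichler integral at `i∞` -/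
lemma Eich.growth {w : ℕ} {f F : ℍ → ℂ} (hF : Eich w f F) (hb : IsBoundedAtImInfty f) :
    ∃ C A0 : ℝ, 0 < A0 ∧ 0 ≤ C ∧ ∀ τ : ℍ, A0 ≤ τ.im → ‖F τ‖ ≤ C * (1 + ‖(τ : ℂ)‖) ^ (2 * w + 1) := by
  obtain ⟨A, hA, hF⟩ := hF
  obtain ⟨M, A1, hM⟩ := isBoundedAtImInfty_iff.1 hb
  set A0 := max A1 1 with hA0
  have hA0' : 0 < A0 := lt_of_lt_of_le one_pos (le_max_right _ _)
  have h1 : ∀ j, ∃ C : ℝ, 0 ≤ C ∧ (j ≤ w → ∀ τ : ℍ, A0 ≤ τ.im →
      ‖A j τ‖ ≤ C * (1 + ‖(τ : ℂ)‖) ^ (j + 1)) := by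
    intro j
    by_cases hj : j ≤ w
    · obtain ⟨C, hC, h⟩ := prim_growth (hA j hj) hA0' (abs_nonneg M) j (fun τ hτ => by
        rw [norm_mul, norm_pow, mul_comm]
        have h2 := (hM τ ((le_max_left _ _).trans hτ)).trans (le_abs_self M)
        refine mul_le_mul h2 ?_ (by positivity) (abs_nonneg _)
        exact pow_le_pow_left₀ (norm_nonneg _) (by linarith) _)
      exact ⟨C, hC, fun _ => h⟩
    · exact ⟨0, le_rfl, fun h => absurd h hj⟩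
  choose c hc0 hc using h1
  refine ⟨∑ i ∈ range (w + 1), 2 ^ w * c i, A0, hA0', sum_nonneg fun i _ => by
    have := hc0 i; positivity, fun τ hτ => ?_⟩
  rw [hF, sum_mul]
  refine (norm_sum_le _ _).trans (sum_le_sum fun i hi => ?_)
  have hi' : i ≤ w := by have := mem_range.1 hi; omega
  rw [norm_mul]
  have hR : 1 ≤ 1 + ‖(τ : ℂ)‖ := by linarith [norm_nonneg (τ : ℂ)]
  calc ‖((X - C (τ : ℂ)) ^ w).coeff i‖ * ‖A i τ‖
      ≤ (2 ^ w * (1 + ‖(τ : ℂ)‖) ^ w) * (c i * (1 + ‖(τ : ℂ)‖) ^ (i + 1)) :=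
        mul_le_mul (coeff_bound w i _) (hc i hi' τ hτ) (norm_nonneg _) (by positivity)
    _ ≤ (2 ^ w * (1 + ‖(τ : ℂ)‖) ^ w) * (c i * (1 + ‖(τ : ℂ)‖) ^ (w + 1)) := by
        refine mul_le_mul_of_nonneg_left (mul_le_mul_of_nonneg_left ?_ (hc0 i)) (by positivity)
        exact pow_le_pow_right₀ hR (by omega)
    _ = _ := by ring

end Vale.Agent.P022.H227
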