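import Vale.Agent.P022.H227.EichB

/-!
# P022-L3, chapter C, analytic half, part 3: removable singularity at the cusp
-/

open UpperHalfPlane Filter Topology
open scoped MatrixGroups ModularForm Manifold

noncomputable section

namespace Vale.Agent.P022.H227

lemma norm_invQParam_le {h : ℝ} (hh : 0 < h) (q : ℂ) :
    ‖Function.Periodic.invQParam h q‖ ≤ h / (2 * Real.pi) * (|Real.log ‖q‖| + Real.pi) := by
  rw [Function.Periodic.invQParam, norm_mul]
  have h1 : ‖(h : ℂ) / (2 * Real.pi * Complex.I)‖ = h / (2 * Real.pi) := by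
    simp [abs_of_pos hh, abs_of_pos Real.pi_pos]
  rw [h1]
  refine mul_le_mul_of_nonneg_left ?_ (by positivity)
  refine (Complex.norm_le_abs_re_add_abs_im _).trans ?_
  rw [Complex.log_re, Complex.log_im]
  exact add_le_add le_rfl (Complex.abs_arg_le_pi q)

lemma bdd_of_growth {F : ℍ → ℂ} (hF : MDiff F) {h : ℝ} (hh : 0 < h)
    (hper : Function.Periodic (F ∘ ofComplex) (h : ℂ)) {C A0 : ℝ} (N : ℕ) (hC : 0 ≤ C)
    (hA0 : 0 < A0) (hg : ∀ τ : ℍ, A0 ≤ τ.im → ‖F τ‖ ≤ C * (1 + ‖(τ : ℂ)‖) ^ N) :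
    IsBoundedAtImInfty F := by
  set G := F ∘ ofComplex with hG
  have hhol : ∀ᶠ z in comap Complex.im atTop, DifferentiableAt ℂ G z := by
    filter_upwards [preimage_mem_comap (Ioi_mem_atTop 0)] with z hz
    exact (UpperHalfPlane.mdifferentiable_iff.1 hF).differentiableAt (isOpen_upperHalfPlaneSet.mem_nhds hz)
  have hd := Function.Periodic.eventually_differentiableAt_cuspFunction_nhds_ne_zero hh hper hhol
  set g := Function.Periodic.cuspFunction h G with hgdef
  set c := h / (2 * Real.pi) with hc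
  have hc0 : 0 < c := by positivity
  set K := 1 + c * Real.pi + c with hK
  have hK0 : 0 < K := by positivity
  -- the size of `g q * q`
  have hlog : Tendsto (fun q : ℂ => 1 + -Real.log ‖q‖) (𝓝[≠] (0 : ℂ)) atTop := by
    refine tendsto_atTop_add_const_left _ _ ?_
    exact tendsto_neg_atBot_atTop.comp
      (Real.tendsto_log_nhdsNE_zero.comp (tendsto_norm_nhdsNE_zero.mono_right
        (nhdsWithin_mono _ fun x hx => ne_of_gt hx)))
  have h1 : Tendsto (fun q : ℂ => C * K ^ N * Real.exp 1 *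
      ((1 + -Real.log ‖q‖) ^ N * Real.exp (-(1 + -Real.log ‖q‖)))) (𝓝[≠] (0 : ℂ)) (𝓝 0) := by
    have h2 := ((Real.tendsto_pow_mul_exp_neg_atTop_nhds_zero N).comp hlog).const_mul
      (C * K ^ N * Real.exp 1)
    simpa using h2
  have h2 : Tendsto (fun q => g q * q) (𝓝[≠] (0 : ℂ)) (𝓝 0) := by
    refine squeeze_zero_norm' ?_ h1
    have h3 := (Function.Periodic.invQParam_tendsto hh).eventually
      (preimage_mem_comap (Ici_mem_atTop A0))
    have h4 := hlog.eventually (eventually_ge_atTop 1)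
    filter_upwards [h3, h4, self_mem_nhdsWithin] with q hq1 hq2 hq3
    have hq0 : q ≠ 0 := hq3
    rw [norm_mul, hgdef, Function.Periodic.cuspFunction_eq_of_nonzero _ _ hq0]
    set z := Function.Periodic.invQParam h q with hz
    have hzim : A0 ≤ z.im := hq1
    have hz0 : 0 < z.im := hA0.trans_le hzim
    have hL : 0 ≤ -Real.log ‖q‖ := by linarith
    have hGz : ‖G z‖ ≤ C * (1 + ‖z‖) ^ N := by
      have h5 := hg ⟨z, hz0⟩ hzim
      have h6 : G z = F ⟨z, hz0⟩ := by
        rw [hG, Function.comp_apply, ofComplex_apply_of_im_pos hz0]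
      rw [h6]
      exact h5
    have hzn : 1 + ‖z‖ ≤ K * (1 + -Real.log ‖q‖) := by
      have h5 := norm_invQParam_le hh q
      rw [← hz, ← hc, abs_of_nonpos (by linarith : Real.log ‖q‖ ≤ 0)] at h5
      have h6 : 0 ≤ c * Real.pi * (-Real.log ‖q‖) := by positivity
      calc 1 + ‖z‖ ≤ 1 + c * (-Real.log ‖q‖ + Real.pi) := by linarith
        _ ≤ K * (1 + -Real.log ‖q‖) := by rw [hK]; nlinarith
    have hqn : ‖q‖ = Real.exp 1 * Real.exp (-(1 + -Real.log ‖q‖)) := by
      rw [← Real.exp_add]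
      have h5 : (1 : ℝ) + -(1 + -Real.log ‖q‖) = Real.log ‖q‖ := by ring
      rw [h5, Real.exp_log (norm_pos_iff.2 hq0)]
    calc ‖G z‖ * ‖q‖ ≤ C * (K * (1 + -Real.log ‖q‖)) ^ N * ‖q‖ := by
          refine mul_le_mul_of_nonneg_right (hGz.trans ?_) (norm_nonneg _)
          exact mul_le_mul_of_nonneg_left (pow_le_pow_left₀ (by positivity) hzn N) hC
      _ = C * K ^ N * Real.exp 1 *
          ((1 + -Real.log ‖q‖) ^ N * Real.exp (-(1 + -Real.log ‖q‖))) := by
          have h7 := congrArg (fun x => C * (K * (1 + -Real.log ‖q‖)) ^ N * x) hqn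
          refine h7.trans ?_
          rw [mul_pow]
          ring
  have ho : (fun q => g q - g 0) =o[𝓝[≠] (0 : ℂ)] fun q => (q - 0)⁻¹ := by
    rw [Asymptotics.isLittleO_iff_tendsto']
    · have h3 : Tendsto (fun q : ℂ => g q * q - g 0 * q) (𝓝[≠] (0 : ℂ)) (𝓝 (0 - g 0 * 0)) :=
        h2.sub ((tendsto_nhdsWithin_of_tendsto_nhds (continuous_id.tendsto (0 : ℂ))).const_mul _)
      rw [mul_zero, sub_zero] at h3
      refine h3.congr fun q => ?_
      rw [sub_zero, div_inv_eq_mul, sub_mul]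
    · filter_upwards [self_mem_nhdsWithin] with q hq h5
      rw [sub_zero, inv_eq_zero] at h5
      exact absurd h5 hq
  have hlim := Complex.tendsto_limUnder_of_differentiable_on_punctured_nhds_of_isLittleO hd ho
  have h3 : Tendsto (fun τ : ℍ => g (Function.Periodic.qParam h τ)) atImInfty
      (𝓝 (limUnder (𝓝[≠] 0) g)) :=
    hlim.comp ((Function.Periodic.qParam_tendsto hh).comp tendsto_coe_atImInfty)
  have h4 : Tendsto F atImInfty (𝓝 (limUnder (𝓝[≠] 0) g)) := by
    refine h3.congr fun τ => ?_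
    rw [hgdef, Function.Periodic.eq_cuspFunction hh.ne' hper, hG, Function.comp_apply,
      ofComplex_apply]
  exact h4.isBigO_one ℝ

end Vale.Agent.P022.H227
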