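import Vale.Agent.P022.H227.EichC

/-!
# P022-L3, chapter C, analytic half, part 4: injectivity
-/

open UpperHalfPlane Filter Topology
open scoped MatrixGroups ModularForm Manifold

noncomputable section

namespace Vale.Agent.P022.H227

lemma Eich.slashSL {w : ℕ} {f F : ℍ → ℂ} (hF : Eich w f F) (δ : SL(2, ℤ)) :
    Eich w (f ∣[((w : ℤ) + 2)] δ) (F ∣[(-(w : ℤ))] δ) := by
  have hd : ((δ : GL (Fin 2) ℝ)).val.det = 1 :=
    congrArg Units.val (Matrix.SpecialLinearGroup.det_mapGL (S := ℝ) δ)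
  have h := hF.slash (δ : GL (Fin 2) ℝ) (by rw [hd]; exact one_pos)
  rw [hd] at h
  simp only [Complex.ofReal_one, one_pow, one_smul] at h
  exact h

lemma periodic_of_T {G : ℍ → ℂ} {k : ℤ} {n : ℕ} (h : G ∣[k] (ModularGroup.T ^ n : SL(2, ℤ)) = G) :
    Function.Periodic (G ∘ ofComplex) (((n : ℝ) : ℝ) : ℂ) := by
  have h1 : ∀ τ : ℍ, G ((n : ℝ) +ᵥ τ) = G τ := by
    intro τ
    have h2 := congrFun h τ
    rw [ModularForm.SL_slash_apply] at h2
    have h3 : (ModularGroup.T ^ n : SL(2, ℤ)) • τ = (n : ℝ) +ᵥ τ := by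
      have := modular_T_zpow_smul τ (n : ℤ)
      simpa using this
    have h4 : denom (ModularGroup.T ^ n : SL(2, ℤ)) (τ : ℂ) = 1 := by
      have h5 := ModularGroup.coe_T_zpow (n : ℤ)
      rw [zpow_natCast] at h5
      have h6 : ((ModularGroup.T ^ n : SL(2, ℤ)) : Matrix (Fin 2) (Fin 2) ℤ) 1 0 = 0 := by
        rw [h5]; rfl
      have h7 : ((ModularGroup.T ^ n : SL(2, ℤ)) : Matrix (Fin 2) (Fin 2) ℤ) 1 1 = 1 := by
        rw [h5]; rfl
      rw [ModularGroup.denom_apply, h6, h7]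
      simp
    rw [h3, h4, one_zpow, mul_one] at h2
    exact h2
  intro z
  by_cases hz : 0 < z.im
  · have hz' : 0 < (z + ((n : ℝ) : ℂ)).im := by simpa using hz
    rw [Function.comp_apply, Function.comp_apply, ofComplex_apply_of_im_pos hz,
      ofComplex_apply_of_im_pos hz']
    refine (congrArg G ?_).trans (h1 ⟨z, hz⟩)
    ext
    simp [add_comm]
  · have hz' : (z + ((n : ℝ) : ℂ)).im ≤ 0 := by simpa using not_lt.1 hz
    rw [Function.comp_apply, Function.comp_apply, ofComplex_apply_of_im_nonpos (not_lt.1 hz),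
      ofComplex_apply_of_im_nonpos hz']

/-- a form of weight `k ≤ 0` is zero (`k < 0`) or constant (`k = 0`) -/
lemma form_nonpos (Γ : Subgroup SL(2, ℤ)) [Γ.FiniteIndex] {k : ℤ} (hk : k ≤ 0) {F : ℍ → ℂ}
    (hhol : MDiff F) (hinv : ∀ γ ∈ Γ, F ∣[k] γ = F)
    (hbd : ∀ δ : SL(2, ℤ), IsBoundedAtImInfty (F ∣[k] δ)) :
    F = 0 ∨ (k = 0 ∧ ∃ c : ℂ, ∀ τ, F τ = c) := by
  let G : ModularForm (Γ : Subgroup (GL (Fin 2) ℝ)) k :=
    { toFun := F
      slash_action_eq' := by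
        rintro _ ⟨γ, hγ, rfl⟩
        exact hinv γ hγ
      holo' := hhol
      bdd_at_cusps' := by
        intro c hc
        rw [Subgroup.IsArithmetic.isCusp_iff_isCusp_SL2Z] at hc
        rw [OnePoint.isBoundedAt_iff_forall_SL2Z hc]
        intro γ _
        exact hbd γ }
  have hGF : (G : ℍ → ℂ) = F := rfl
  rcases hk.lt_or_eq with hk | rfl
  · left
    rw [← hGF, ModularForm.isZero_of_neg_weight hk G]
    rfl
  · right
    obtain ⟨c, hc⟩ := ModularForm.eq_const_of_weight_zero G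
    exact ⟨rfl, c, fun τ => by rw [← hGF, hc]; rfl⟩

/-- The Eichler integral of a form which is bounded at all cusps and which is invariant of weight
`-w` under a subgroup of finite index, belongs to the form `0`. -/
theorem eich_eq_zero (Γ : Subgroup SL(2, ℤ)) [Γ.FiniteIndex] {w : ℕ} {f F : ℍ → ℂ}
    (hf : ∀ δ : SL(2, ℤ), IsBoundedAtImInfty (f ∣[((w : ℤ) + 2)] δ)) (hF : Eich w f F)
    (hinv : ∀ γ ∈ Γ, F ∣[(-(w : ℤ))] γ = F) : f = 0 := by
  have hbd : ∀ δ : SL(2, ℤ), IsBoundedAtImInfty (F ∣[(-(w : ℤ))] δ) := by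
    intro δ
    obtain ⟨n, hn, -, hmem⟩ := Subgroup.exists_pow_mem_of_index_ne_zero
      (H := Γ) Subgroup.FiniteIndex.index_ne_zero (δ * ModularGroup.T * δ⁻¹)
    have hE := hF.slashSL δ
    have hT : (F ∣[(-(w : ℤ))] δ) ∣[(-(w : ℤ))] (ModularGroup.T ^ n : SL(2, ℤ)) =
        F ∣[(-(w : ℤ))] δ := by
      rw [← SlashAction.slash_mul]
      have e : δ * ModularGroup.T ^ n = (δ * ModularGroup.T * δ⁻¹) ^ n * δ := by
        rw [conj_pow]
        group
      rw [e, SlashAction.slash_mul, hinv _ hmem]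
    obtain ⟨C, A0, hA0, hC, hg⟩ := hE.growth (hf δ)
    exact bdd_of_growth hE.mdiff (h := (n : ℝ)) (by exact_mod_cast hn) (periodic_of_T hT) _ hC
      hA0 hg
  have hpol : PolF w F := by
    rcases form_nonpos Γ (by omega : (-(w : ℤ)) ≤ 0) hF.mdiff hinv hbd with h | ⟨hw, c, hc⟩
    · exact ⟨0, by simp, fun τ => by simp [h]⟩
    · exact ⟨Polynomial.C c, by simp, fun τ => by simp [hc]⟩
  have h1 := hF.sub (eich_of_polF hpol)
  rw [sub_self, sub_zero] at h1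
  exact h1.eq_zero_of_zero

/-- **Injectivity of `f ↦ [γ ↦ F|γ - F]` on all forms of weight `w + 2`**: if the cocycle of an
Eichler integral `F` of `f` is the coboundary of a polynomial of degree at most `w`, then
`f = 0`. -/
theorem eich_injective (Γ : Subgroup SL(2, ℤ)) [Γ.FiniteIndex] {w : ℕ} {f F P : ℍ → ℂ}
    (hf : ∀ δ : SL(2, ℤ), IsBoundedAtImInfty (f ∣[((w : ℤ) + 2)] δ)) (hF : Eich w f F)
    (hP : PolF w P)
    (h : ∀ γ ∈ Γ, F ∣[(-(w : ℤ))] γ - F = P ∣[(-(w : ℤ))] γ - P) : f = 0 := by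
  refine eich_eq_zero Γ hf (hF.add_pol hP.neg) fun γ hγ => ?_
  have h1 := h γ hγ
  rw [← sub_eq_add_neg]
  have h2 : (F - P) ∣[(-(w : ℤ))] γ = F ∣[(-(w : ℤ))] γ - P ∣[(-(w : ℤ))] γ := by
    rw [sub_eq_add_neg, SlashAction.add_slash, SlashAction.neg_slash, ← sub_eq_add_neg]
  rw [h2]
  have h3 := sub_eq_sub_iff_sub_eq_sub.1 h1
  exact h3

/-- the same for Mathlib's modular forms -/
theorem modularForm_eq_zero (Γ : Subgroup SL(2, ℤ)) [Γ.FiniteIndex] {w : ℕ}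
    (f : ModularForm (Γ : Subgroup (GL (Fin 2) ℝ)) ((w : ℤ) + 2)) {F P : ℍ → ℂ}
    (hF : Eich w f F) (hP : PolF w P)
    (h : ∀ γ ∈ Γ, F ∣[(-(w : ℤ))] γ - F = P ∣[(-(w : ℤ))] γ - P) : f = 0 := by
  have h1 : (f : ℍ → ℂ) = 0 := by
    refine eich_injective Γ (fun δ => ?_) hF hP h
    have hc : IsCusp ((δ : GL (Fin 2) ℝ) • OnePoint.infty) (Γ : Subgroup (GL (Fin 2) ℝ)) := by
      rw [Subgroup.IsArithmetic.isCusp_iff_isCusp_SL2Z]
      exact isCusp_SL2Z_iff'.2 ⟨δ, rfl⟩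
    exact f.bdd_at_cusps' hc _ rfl
  exact DFunLike.coe_injective h1

/-- the cocycle `F|γ - F` consists of polynomials of degree at most `w` -/
theorem cocycle_polF {w : ℕ} {f F : ℍ → ℂ} (hF : Eich w f F) {γ : SL(2, ℤ)}
    (hγ : f ∣[((w : ℤ) + 2)] γ = f) : PolF w (F ∣[(-(w : ℤ))] γ - F) := by
  have h := hF.slashSL γ
  rw [hγ] at h
  exact h.sub_pol hF

end Vale.Agent.P022.H227
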