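import Vale.Agent.P022.H227.FchLit
import Vale.Agent.P022.H20.Frob

/-!
P022, [FCH] half (b): from `ℚ̄` down to a finite extension `L` of `K`, and back.
-/

open NumberField IsDedekindDomain Finset
open scoped Pointwise

noncomputable section

namespace Vale.Agent.P022.H227

open Vale.Agent.P022 Vale.Agent.P022.C

theorem LIFTP : LIFTPStmt := by
  intro L _ _ i P hP
  let _ := H916.algj i
  have hinj : Function.Injective (algebraMap (𝓞 L) (𝓞 Qb)) := by
    intro x y h
    apply RingOfIntegers.ext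
    apply i.injective
    exact congrArg (fun z : 𝓞 Qb => (z : Qb)) h
  have hint : Algebra.IsIntegral (𝓞 L) (𝓞 Qb) := by
    refine ⟨fun x => ?_⟩
    have h1 : IsIntegral ℤ x := RingOfIntegers.isIntegral x
    exact h1.tower_top
  obtain ⟨Q, hQ, hQP⟩ := Ideal.exists_ideal_over_prime_of_isIntegral P (⊥ : Ideal (𝓞 Qb)) (by
    rw [Ideal.comap_bot_of_injective _ hinj]
    exact bot_le)
  exact ⟨Q, hQP.1, hQP.2⟩

section

variable {K L : Type} [Field K] [NumberField K] [Field L] [NumberField L]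
    [Algebra K L] (j : K →+* Qb) (i : L →+* Qb) (hi : ∀ x : K, i (algebraMap K L x) = j x)

omit [NumberField K] [NumberField L] in
include hi in
lemma GK_le {g : GQ} (hg : g ∈ GK i) : g ∈ GK j := by
  intro x
  rw [← hi x]
  exact hg _

omit [NumberField K] in
include hi in
/-- every `K`-automorphism of `L` extends to an element of `G_K` -/
lemma exists_ext (τ : L ≃ₐ[K] L) : ∃ g : GK j, ∀ x : L, (g : GQ) (i x) = i (τ x) := by
  let _ : Algebra L Qb := i.toAlgebra
  have : Algebra.IsAlgebraic L Qb := Algebra.IsAlgebraic.tower_top (K := ℚ) L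
  have : IsAlgClosure L Qb := ⟨inferInstance, inferInstance⟩
  let e : Qb ≃+* Qb := IsAlgClosure.equivOfEquiv Qb Qb (τ : L ≃+* L)
  have he : ∀ x : L, e (i x) = i (τ x) := fun x =>
    IsAlgClosure.equivOfEquiv_algebraMap Qb Qb (τ : L ≃+* L) x
  let g : GQ := AlgEquiv.ofRingEquiv (f := e) (fun q => by simp)
  refine ⟨⟨g, fun x => ?_⟩, he⟩
  rw [← hi x]
  change e (i (algebraMap K L x)) = _
  rw [he, τ.commutes]

omit [NumberField K] [NumberField L] in
/-- the action on the integers of `L` -/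
lemma smul_map {g : GQ} {τ : L ≃ₐ[K] L} (hg : ∀ x : L, g (i x) = i (τ x)) (x : 𝓞 L) :
    g • RingOfIntegers.mapRingHom i x = RingOfIntegers.mapRingHom i (τ • x) := by
  apply RingOfIntegers.ext
  exact hg x

end

theorem DOWNI : DOWNIStmt := by
  intro K L _ _ _ _ _ j i hi Q g hg τ hτ x
  change RingOfIntegers.mapRingHom i (τ • x - x) ∈ Q
  rw [map_sub, ← smul_map i hτ]
  exact hg _

theorem LIFTI : LIFTIStmt := by
  intro K L _ _ _ _ _ j i hi Q hQ τ hτ
  obtain ⟨g₁, h1⟩ := exists_ext j i hi τ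
  have hp1 : ((g₁ : GQ)⁻¹ • Q).IsPrime := inferInstance
  have hb : below i Q = below i ((g₁ : GQ)⁻¹ • Q) := by
    ext x
    show x ∈ below i Q ↔ RingOfIntegers.mapRingHom i x ∈ (g₁ : GQ)⁻¹ • Q
    rw [Ideal.mem_pointwise_smul_iff_inv_smul_mem, inv_inv, smul_map i h1]
    show x ∈ below i Q ↔ τ • x ∈ below i Q
    constructor
    · intro h
      have := (below i Q).add_mem (hτ x) h
      simpa using this
    · intro h
      have := (below i Q).sub_mem h (hτ x)
      simpa using this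
  obtain ⟨h, hh⟩ := H916.exists_smul i hQ hp1 hb
  have hst : ((g₁ : GQ) * (h : GQ)) • Q = Q := by
    rw [mul_smul, ← hh, smul_smul, mul_inv_cancel, one_smul]
  have hfix : ∀ x : 𝓞 L, ((g₁ : GQ) * (h : GQ)) • RingOfIntegers.mapRingHom i x -
      RingOfIntegers.mapRingHom i x ∈ Q := by
    intro x
    have h3 : (h : GQ) • RingOfIntegers.mapRingHom i x = RingOfIntegers.mapRingHom i x := by
      apply RingOfIntegers.ext
      exact h.2 x
    rw [mul_smul, h3, smul_map i h1, ← map_sub]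
    exact hτ x
  obtain ⟨g₂, h2⟩ := H916.exists_lift i hQ hst hfix
  have hiff : ∀ y : 𝓞 Qb, (g₂ : GQ) • y ∈ Q → y ∈ Q := by
    intro y hy
    have h3 : ((g₁ : GQ) * (h : GQ)) • y ∈ Q := by
      have := Q.sub_mem hy (h2 y)
      simpa using this
    rw [← hst, Ideal.smul_mem_pointwise_smul_iff] at h3
    exact h3
  refine ⟨⟨(g₂ : GQ)⁻¹ * ((g₁ : GQ) * (h : GQ)), ?_⟩, fun x => ?_, fun x => ?_⟩
  · exact (GK j).mul_mem ((GK j).inv_mem (GK_le j i hi g₂.2))
      ((GK j).mul_mem g₁.2 (GK_le j i hi h.2))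
  · apply hiff
    change (g₂ : GQ) • (((g₂ : GQ)⁻¹ * ((g₁ : GQ) * (h : GQ))) • x - x) ∈ Q
    rw [smul_sub, smul_smul, mul_inv_cancel_left]
    have := Q.neg_mem (h2 x)
    simpa using this
  · have h3 : ((h : GQ)) (i x) = i x := h.2 x
    have h4 : ((g₂ : GQ)⁻¹) (i (τ x)) = i (τ x) := (GK i).inv_mem g₂.2 (τ x)
    change ((g₂ : GQ)⁻¹) ((g₁ : GQ) ((h : GQ) (i x))) = _
    rw [h3, h1, h4]

/-- a prime number in a prime ideal -/
lemma exists_prime_mem {K : Type} [Field K] [NumberField K] (v : HeightOneSpectrum (𝓞 K)) :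
    ∃ l : ℕ, l.Prime ∧ (l : 𝓞 K) ∈ v.asIdeal := by
  have h0 : Ideal.absNorm v.asIdeal ≠ 0 := by
    rw [Ne, Ideal.absNorm_eq_zero_iff]
    exact v.ne_bot
  have h1 : ((Ideal.absNorm v.asIdeal : ℕ) : 𝓞 K) ∈ v.asIdeal := Ideal.absNorm_mem _
  by_contra hn
  push Not at hn
  have h2 : ∀ n : ℕ, n ≠ 0 → ((n : ℕ) : 𝓞 K) ∉ v.asIdeal := by
    intro n
    induction n using Nat.recOnMul with
    | zero => intro h; exact absurd rfl h
    | one =>
      intro _ h
      rw [Nat.cast_one] at h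
      exact v.isPrime.ne_top ((Ideal.eq_top_iff_one _).2 h)
    | prime p hp => intro _; exact hn p hp
    | mul a b iha ihb =>
      intro hab h
      rw [Nat.cast_mul] at h
      rcases v.isPrime.mem_or_mem h with h | h
      · exact iha (left_ne_zero_of_mul hab) h
      · exact ihb (right_ne_zero_of_mul hab) h
  exact h2 _ h0 h1

theorem FRQ : FRQStmt := by
  intro K L _ _ _ _ _ j i hi v Q hQ hv
  refine ⟨?_, ?_, ?_⟩
  · obtain ⟨l, hl, hlv⟩ := exists_prime_mem v
    rw [← hv] at hlv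
    have hlQ : (l : 𝓞 Qb) ∈ Q := by
      have : RingOfIntegers.mapRingHom j (l : 𝓞 K) ∈ Q := hlv
      simpa using this
    obtain ⟨g, hg⟩ := H20.exists_frob j hQ hl hlQ
    rw [hv] at hg
    exact ⟨g, hQ, hv, hg⟩
  · rw [← hv]
    ext x
    show RingOfIntegers.mapRingHom i (algebraMap (𝓞 K) (𝓞 L) x) ∈ Q ↔
      RingOfIntegers.mapRingHom j x ∈ Q
    have : RingOfIntegers.mapRingHom i (algebraMap (𝓞 K) (𝓞 L) x) =
        RingOfIntegers.mapRingHom j x := by
      apply RingOfIntegers.ext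
      exact hi x
    rw [this]
  · intro g hg τ hτ x
    change RingOfIntegers.mapRingHom i (τ • x - x ^ Ideal.absNorm v.asIdeal) ∈ Q
    rw [map_sub, ← smul_map i hτ, map_pow]
    exact hg.2.2 _

theorem CJL : CJLStmt := by
  intro K L _ _ _ _ _ j i hi φ ρ hρ
  let _ : Algebra L Qb := i.toAlgebra
  let _ : Algebra L ℂ := ρ.toAlgebra
  have : Algebra.IsAlgebraic L Qb := Algebra.IsAlgebraic.tower_top (K := ℚ) L
  let Φ : Qb →ₐ[L] ℂ := IsAlgClosed.lift
  have hΦ : ∀ x : L, Φ (i x) = ρ x := fun x => Φ.commutes x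
  let _ : Algebra Qb ℂ := (Φ : Qb →+* ℂ).toAlgebra
  let c : ℂ ≃ₐ[ℚ] ℂ := Complex.conjAe.restrictScalars ℚ
  let g : GQ := c.restrictNormal Qb
  have hg : ∀ x : Qb, Φ (g x) = starRingEnd ℂ (Φ x) := fun x =>
    AlgEquiv.restrictNormal_commutes c Qb x
  have hj : ∀ x : K, Φ (j x) = (φ x : ℂ) := by
    intro x
    rw [← hi x, hΦ, hρ]
  have hgK : g ∈ GK j := by
    intro x
    apply (Φ : Qb →+* ℂ).injective
    change Φ (g (j x)) = Φ (j x)
    rw [hg, hj, Complex.conj_ofReal]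
  refine ⟨⟨g, hgK⟩, ⟨(Φ : Qb →+* ℂ), hj, hg⟩, fun τ hτ x => ?_⟩
  rw [← hΦ x, ← hg, hτ x, hΦ]

end Vale.Agent.P022.H227
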