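import Vale.Agent.P022.H567.Gch

/-!
P022, [FCH] half (b): from `ℚ̄` down to a finite extension `L` of `K`, and back.
-/

open NumberField IsDedekindDomain Finset

noncomputable section

namespace Vale.Agent.P022.C

/-- (b1) every prime of `𝓞 L` is below a prime of `𝓞 ℚ̄` -/
def LIFTPStmt : Prop := ∀ (L : Type) [Field L] [NumberField L] (i : L →+* Qb) (P : Ideal (𝓞 L))
  (_ : P.IsPrime), ∃ Q : Ideal (𝓞 Qb), Q.IsPrime ∧ below i Q = P

/-- (b2) inertia: every element of the inertia group of `below i Q` comes from the inertia group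
of `Q` -/
def LIFTIStmt : Prop := ∀ (K L : Type) [Field K] [NumberField K] [Field L] [NumberField L]
  [Algebra K L] (j : K →+* Qb) (i : L →+* Qb) (_ : ∀ x : K, i (algebraMap K L x) = j x)
  (Q : Ideal (𝓞 Qb)) (_ : Q.IsPrime) (τ : L ≃ₐ[K] L) (_ : ∀ x : 𝓞 L, τ • x - x ∈ below i Q),
  ∃ g : GK j, InI j Q g ∧ ∀ x : L, (g : GQ) (i x) = i (τ x)

/-- (b2') restriction of inertia -/
def DOWNIStmt : Prop := ∀ (K L : Type) [Field K] [NumberField K] [Field L] [NumberField L]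
  [Algebra K L] (j : K →+* Qb) (i : L →+* Qb) (_ : ∀ x : K, i (algebraMap K L x) = j x)
  (Q : Ideal (𝓞 Qb)) (g : GK j) (_ : InI j Q g) (τ : L ≃ₐ[K] L)
  (_ : ∀ x : L, (g : GQ) (i x) = i (τ x)), ∀ x : 𝓞 L, τ • x - x ∈ below i Q

/-- (b3) Frobenius elements exist at every prime `Q` of `𝓞 ℚ̄` above `v`, and restrict to Frobenius
elements of `L` -/
def FRQStmt : Prop := ∀ (K L : Type) [Field K] [NumberField K] [Field L] [NumberField L]
  [Algebra K L] (j : K →+* Qb) (i : L →+* Qb) (_ : ∀ x : K, i (algebraMap K L x) = j x)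
  (v : HeightOneSpectrum (𝓞 K)) (Q : Ideal (𝓞 Qb)) (_ : Q.IsPrime)
  (_ : below j Q = v.asIdeal),
  (∃ g : GK j, FrI j v Q g) ∧ dn K (below i Q) = v.asIdeal ∧
  ∀ (g : GK j) (_ : FrI j v Q g) (τ : L ≃ₐ[K] L) (_ : ∀ x : L, (g : GQ) (i x) = i (τ x)),
    Frob τ (Ideal.absNorm v.asIdeal) (below i Q)

/-- (b4) complex conjugations: every complex place `ρ` of `L` above the real place `φ` of `K`
extends to `ℚ̄`, and gives a complex conjugation in `G_K` -/
def CJLStmt : Prop := ∀ (K L : Type) [Field K] [NumberField K] [Field L] [NumberField L]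
  [Algebra K L] (j : K →+* Qb) (i : L →+* Qb) (_ : ∀ x : K, i (algebraMap K L x) = j x)
  (φ : K →+* ℝ) (ρ : L →+* ℂ) (_ : ∀ x : K, ρ (algebraMap K L x) = (φ x : ℂ)),
  ∃ g : GK j, CjI j φ g ∧ ∀ (τ : L ≃ₐ[K] L) (_ : ∀ x : L, (g : GQ) (i x) = i (τ x)) (x : L),
    starRingEnd ℂ (ρ x) = ρ (τ x)

end Vale.Agent.P022.C
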