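import Vale.Agent.P022.H227.LiftA

/-!
# P022-X, row [LIFT2]: theta series of level `N 2^s` are congruent to forms of level `N`
-/

open scoped ModularForm MatrixGroups Manifold NumberField
open UpperHalfPlane Matrix CongruenceSubgroup
open Vale.Agent.P022.H220

noncomputable section

namespace Vale.Agent.P022.H227

open Vale.Agent.P022 Vale.Agent.P022.X

/-- [THF] (part (b), helper964): the theta series of `𝔟` on `Γ₁(N) ∩ Γ₀(2^s)`, `N = D₁ m²`,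
`s = e + 2 r` -/
def THFStmt : Prop := ∀ (K : Type) [Field K] [NumberField K] [Algebra.IsQuadraticExtension ℚ K]
  [NumberField.IsTotallyComplex K] (D₁ e : ℕ) (_ : NumberField.discr K = -((D₁ * 2 ^ e : ℕ) : ℤ))
  (_ : Odd D₁) (m : ℕ) (_ : Odd m) (χ : ℤ → ℤ)
  (_ : ∀ d, Odd d → χ d = 1 ∨ χ d = -1)
  (_ : ∀ d d' : ℤ, Odd d → IsCoprime d (D₁ : ℤ) → Odd d' → (D₁ : ℤ) ∣ d' - 1 →
      chiD (D₁ * 2 ^ e) (d' * d) = χ d' * chiD (D₁ * 2 ^ e) d)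
  (σ : K →+* ℂ) (O : Subring ℂ) (_ : ∀ z, IsIntegral ℤ z → z ∈ O)
  (_ : ∀ m : ℕ, Odd m → ((m : ℂ)⁻¹) ∈ O) (r κ : ℕ) (𝔟 : Ideal (𝓞 K)) (_ : 𝔟 ≠ ⊥),
  ∃ B R : ℕ, 0 < R ∧ ∀ f : 𝓞 K → ℤ, Eqv m r (D₁ * m ^ 2) χ f →
    MDifferentiable 𝓘(ℂ) 𝓘(ℂ) (fun τ : ℍ => thI σ 𝔟 (fun α => (f α : ℂ)) κ τ) ∧
    (∀ γ ∈ Gamma1 (D₁ * m ^ 2), (2 ^ (e + 2 * r) : ℤ) ∣ γ 1 0 →
      (fun τ : ℍ => thI σ 𝔟 (fun α => (f α : ℂ)) κ τ) ∣[((κ + 1 : ℕ) : ℤ)] γ =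
        fun τ : ℍ => thI σ 𝔟 (fun α => (f α : ℂ)) κ τ) ∧
    (∀ γ : SL(2, ℤ), Ex (mulS ((2 : ℂ)⁻¹ ^ B) O) R
      ((fun τ : ℍ => thI σ 𝔟 (fun α => (f α : ℂ)) κ τ) ∣[((κ + 1 : ℕ) : ℤ)] γ)) ∧
    (∀ (ℓ : PA (D₁ * m ^ 2)) (δ : SL(2, ℤ)), ((D₁ * m ^ 2 * 2 ^ (e + 2 * r) : ℕ) : ℤ) ∣ δ 1 0 →
      δ 1 1 = ℓ.1 →
      (fun τ : ℍ => thI σ 𝔟 (fun α => (f α : ℂ)) κ τ) ∣[((κ + 1 : ℕ) : ℤ)] δ =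
        fun τ : ℍ => thI σ 𝔟 (fun α => ((chiD (D₁ * 2 ^ e) ℓ.1 * f (ℓ.1 * α) : ℤ) : ℂ)) κ τ) ∧
    ∀ τ : ℍ, HasSum (fun j : ℕ => cfI σ 𝔟 f κ j *
      Complex.exp (2 * Real.pi * Complex.I * j * τ)) (thI σ 𝔟 (fun α => (f α : ℂ)) κ τ)

theorem eqv_act {K : Type} [Field K] [NumberField K] {m r N : ℕ} {χ : ℤ → ℤ} {f : 𝓞 K → ℤ}
    (hf : Eqv m r N χ f) (u : ℤ) (ℓ : ℕ) : Eqv m r N χ (fun α : 𝓞 K => u * f (ℓ * α)) := by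
  refine ⟨fun α β => ?_, fun d hd hN α => ?_⟩
  · have h := hf.1 ((ℓ : 𝓞 K) * α) ((ℓ : 𝓞 K) * β)
    show u * f ((ℓ : 𝓞 K) * (α + (2 ^ r * m : ℕ) * β)) = u * f ((ℓ : 𝓞 K) * α)
    rw [← h]
    congr 2
    ring
  · have h := hf.2 d hd hN ((ℓ : 𝓞 K) * α)
    show u * f ((ℓ : 𝓞 K) * (d * α)) = χ d * (u * f ((ℓ : 𝓞 K) * α))
    rw [show (ℓ : 𝓞 K) * (d * α) = d * (ℓ * α) by ring, h]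
    ring

/-- **[LIFT2]** from [TR], [HS2] and [THF] -/
theorem LIFT2 (hTR : TRStmt) (hHS : HS2Stmt) (hF : THFStmt) : LIFT2Stmt := by
  intro K _ _ _ _ D₁ e hD hD₁ m hm _ χ h1 h4 σ O hO1 hO2 r κ n 𝔟 h𝔟
  obtain ⟨B, R, hR, h⟩ := hF K D₁ e hD hD₁ m hm χ h1 h4 σ O hO1 hO2 r κ 𝔟 h𝔟
  exact liftA hTR hHS (N := D₁ * m ^ 2) (s := e + 2 * r) (hD₁.mul hm.pow) O hO1 κ n
    {f : 𝓞 K → ℤ | Eqv m r (D₁ * m ^ 2) χ f}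
    (fun f τ => thI σ 𝔟 (fun α => (f α : ℂ)) κ τ) (fun f => cfI σ 𝔟 f κ)
    (fun ℓ f α => chiD (D₁ * 2 ^ e) ℓ.1 * f (ℓ.1 * α))
    (fun ℓ f hf => eqv_act hf _ _)
    (fun f hf => (h f hf).2.2.2.2)
    (fun f hf => (h f hf).2.1)
    (fun f hf => (h f hf).2.2.2.1)
    (fun γ => ⟨R, B, hR, fun f hf => (h f hf).2.2.1 γ⟩)

end Vale.Agent.P022.H227
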