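import Vale.Agent.P022.H933.Ext2
import Vale.Agent.P022.H783.QE
import Vale.Agent.P022.H889.Hol
import Vale.Agent.P022.H645.Tr

/-!
# P022-X, row [LIFT2], part (a): from forms on `Γ₁(N) ∩ Γ₀(2^s)` to forms on `Γ₁(N)`
-/

open scoped ModularForm MatrixGroups Manifold NumberField
open UpperHalfPlane Matrix CongruenceSubgroup
open Vale.Agent.P022.H220

noncomputable section

namespace Vale.Agent.P022.H227

open Vale.Agent.P022 Vale.Agent.P022.X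

/-! ### small lemmas on expansions -/

theorem mem_mulS {z x : ℂ} {O : Subring ℂ} : x ∈ mulS z O ↔ ∃ y ∈ O, x = z * y := Iff.rfl

theorem mulS_mul {z w : ℂ} {O : Subring ℂ} : ∀ a ∈ mulS z O, ∀ b ∈ mulS w O,
    a * b ∈ mulS (z * w) O := by
  rintro _ ⟨y, hy, rfl⟩ _ ⟨y', hy', rfl⟩
  exact ⟨y * y', O.mul_mem hy hy', by ring⟩

theorem mulS_le {z w : ℂ} {O : Subring ℂ} (h : ∃ e ∈ O, z = w * e) : mulS z O ≤ mulS w O := by
  obtain ⟨e, he, rfl⟩ := h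
  rintro _ ⟨y, hy, rfl⟩
  exact ⟨e * y, O.mul_mem he hy, by ring⟩

theorem mulS_mono {z : ℂ} {O O' : Subring ℂ} (h : O ≤ O') : mulS z O ≤ mulS z O' := by
  rintro _ ⟨y, hy, rfl⟩
  exact ⟨y, h hy, rfl⟩

theorem Ex_mulS_pow {z : ℂ} {O : Subring ℂ} {R : ℕ} {F : ℍ → ℂ} (hF : Ex (mulS z O) R F)
    (n : ℕ) : Ex (mulS (z ^ n) O) R (fun τ => F τ ^ n) := by
  induction n with
  | zero => exact Ex.congr (fun τ => pow_zero _) (Ex.const ⟨1, O.one_mem, by simp⟩)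
  | succ n IH =>
    refine Ex.congr (fun τ => pow_succ _ _) (Ex.mul (fun a ha b hb => ?_) IH hF)
    rw [pow_succ]
    exact mulS_mul a ha b hb

theorem Ex_top {A : AddSubgroup ℂ} {R : ℕ} {F : ℍ → ℂ} (h : Ex A R F) :
    Ex (⊤ : Subring ℂ).toAddSubgroup R F := Ex.mono (fun _ _ => Subring.mem_top _) h

theorem Ex_top_mul_pow {R R' : ℕ} (hR : 0 < R) (hR' : 0 < R') {F G : ℍ → ℂ}
    (hF : Ex (⊤ : Subring ℂ).toAddSubgroup R F) (hG : Ex (⊤ : Subring ℂ).toAddSubgroup R' G)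
    (n : ℕ) : Ex (⊤ : Subring ℂ).toAddSubgroup (R * R') (fun τ => F τ * G τ ^ n) := by
  refine Ex.mul (B := (⊤ : Subring ℂ).toAddSubgroup) (fun _ _ _ _ => Subring.mem_top _)
    (Ex.up hR hR' hF) ?_
  rw [mul_comm R R']
  exact Ex.pow (Ex.up hR' hR hG) n

theorem up_hs {b : ℕ → ℂ} {R : ℕ} (hR : 0 < R) {τ : ℍ} {z : ℂ}
    (h : HasSum (fun j : ℕ => b j * Complex.exp (2 * Real.pi * Complex.I * j * (τ : ℂ))) z) :
    HasSum (fun n : ℕ => (if R ∣ n then b (n / R) else 0) *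
      Complex.exp (2 * Real.pi * Complex.I * n * (τ : ℂ) / R)) z := by
  have inj : Function.Injective (fun m : ℕ => R * m) := fun a b h =>
    Nat.eq_of_mul_eq_mul_left hR h
  have hR0 : (R : ℂ) ≠ 0 := by exact_mod_cast hR.ne'
  refine (inj.hasSum_iff ?_).1 (hs_congr' h fun n => ?_)
  · intro x hx
    rw [if_neg, zero_mul]
    rintro ⟨y, rfl⟩
    exact hx ⟨y, rfl⟩
  · simp only [Function.comp_apply, dvd_mul_right, if_true]
    rw [Nat.mul_div_cancel_left _ hR]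
    congr 2
    push_cast
    field_simp

/-- coefficients of a function with period one and an expansion in `e(τ / R)` -/
theorem coeff_mem {A : AddSubgroup ℂ} {R : ℕ} (hR : 0 < R) {D : ℍ → ℂ} (hD : Ex A R D)
    {b : ℕ → ℂ} (hb : ∀ τ : ℍ, HasSum (fun j : ℕ => b j *
      Complex.exp (2 * Real.pi * Complex.I * j * (τ : ℂ))) (D τ)) (j : ℕ) : b j ∈ A := by
  obtain ⟨a, ha, hs⟩ := hD
  have h := Ex.unique hR hs (fun τ => up_hs hR (hb τ)) (R * j)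
  rw [if_pos (dvd_mul_right _ _), Nat.mul_div_cancel_left _ hR] at h
  rw [← h]
  exact ha _

/-! ### the lift -/

theorem liftA (hTR : TRStmt) (hHS : HS2Stmt) {N s : ℕ} [NeZero N] (hN : Odd N) (O : Subring ℂ)
    (hO : ∀ z, IsIntegral ℤ z → z ∈ O) (κ n : ℕ) {X : Type*} (S : Set X) (F : X → ℍ → ℂ)
    (c : X → ℕ → ℂ) (act : PA N → X → X) (hact : ∀ ℓ, ∀ x ∈ S, act ℓ x ∈ S)
    (hq : ∀ x ∈ S, ∀ τ : ℍ, HasSum (fun j : ℕ => c x j *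
      Complex.exp (2 * Real.pi * Complex.I * j * τ)) (F x τ))
    (hinv : ∀ x ∈ S, ∀ γ : SL(2, ℤ), γ ∈ Gamma1 N → (2 ^ s : ℤ) ∣ γ 1 0 →
      F x ∣[((κ + 1 : ℕ) : ℤ)] γ = F x)
    (hdia : ∀ x ∈ S, ∀ (ℓ : PA N) (δ : SL(2, ℤ)), ((N * 2 ^ s : ℕ) : ℤ) ∣ δ 1 0 →
      δ 1 1 = ℓ.1 → F x ∣[((κ + 1 : ℕ) : ℤ)] δ = F (act ℓ x))
    (hex : ∀ γ : SL(2, ℤ), ∃ R B : ℕ, 0 < R ∧ ∀ x ∈ S,
      Ex (mulS ((2 : ℂ)⁻¹ ^ B) O) R (F x ∣[((κ + 1 : ℕ) : ℤ)] γ)) :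
    ∃ (k : ℕ) (Φ : X → MF N (κ + 2 ^ n * k + 1)), ∀ x ∈ S,
      Cong O n (Φ x) (c x) ∧
      ∀ ℓ : PA N, H783.dia (κ + 2 ^ n * k + 1) ℓ (Φ x) = Φ (act ℓ x) := by
  classical
  obtain ⟨reps, h1, hr1, hr2, htr⟩ := hTR N s hN
  obtain ⟨kH, H, hH1, hH2, hH3⟩ := hHS s
  choose R B hR hE using hex
  have hZ : Zb ≤ O := fun z hz => hO z hz
  -- `H` itself
  have hH4 : Ex O.toAddSubgroup 1 (fun τ => (H τ - 1) / 2) :=
    Ex.mono (fun z hz => hZ hz) hH1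
  have hH5 : Ex O.toAddSubgroup 1 H := by
    have h := Ex.smul (c := 2) (B := O.toAddSubgroup)
      (fun a ha => O.mul_mem (ofNat_mem O 2) ha) hH4
    exact Ex.congr (fun τ => by ring) (Ex.add h (Ex.const O.one_mem))
  have hH6 : ∀ γ : SL(2, ℤ), ∃ R' : ℕ, 0 < R' ∧
      Ex (⊤ : Subring ℂ).toAddSubgroup R' (H ∣[(kH : ℤ)] γ) ∧
      (¬ (2 ^ s : ℤ) ∣ γ 1 0 → Ex (mulS 2 O) R' (H ∣[(kH : ℤ)] γ)) := by
    intro γ
    by_cases h : (2 ^ s : ℤ) ∣ γ 1 0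
    · refine ⟨1, one_pos, ?_, fun h' => absurd h h'⟩
      rw [hH2 γ h]
      exact Ex_top hH5
    · obtain ⟨R', h2, h3⟩ := hH3 γ h
      exact ⟨R', h2, Ex_top h3, fun _ => Ex.mono (mulS_mono hZ) h3⟩
  choose R' hR' hH7 hH8 using hH6
  set Bt := ∑ γ ∈ reps, B γ with hBt
  have hB : ∀ γ ∈ reps, B γ ≤ Bt := fun γ hγ =>
    Finset.single_le_sum (f := B) (fun _ _ => Nat.zero_le _) hγ
  set M := 2 ^ (n + Bt) with hM
  set Rt := ∏ γ ∈ reps, (R γ * R' γ) with hRt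
  have hRt0 : 0 < Rt := Finset.prod_pos fun γ _ => Nat.mul_pos (hR γ) (hR' γ)
  have hup : ∀ {A : AddSubgroup ℂ} {G : ℍ → ℂ}, ∀ γ ∈ reps, Ex A (R γ * R' γ) G →
      Ex A Rt G := by
    intro A G γ hγ hG
    rw [hRt, ← Finset.mul_prod_erase _ _ hγ]
    exact Ex.up (Nat.mul_pos (hR γ) (hR' γ))
      (Finset.prod_pos fun γ _ => Nat.mul_pos (hR γ) (hR' γ)) hG
  obtain ⟨w, hw⟩ : ∃ w, w = κ + 2 ^ n * (2 ^ Bt * kH) + 1 := ⟨_, rfl⟩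
  have hw' : w = (κ + 1) + M * kH := by
    rw [hw, hM, pow_add]
    ring
  suffices hmain : ∃ Φ : X → MF N w, ∀ x ∈ S, Cong O n (Φ x) (c x) ∧
      ∀ ℓ : PA N, H783.dia w ℓ (Φ x) = Φ (act ℓ x) by
    rw [hw] at hmain
    exact ⟨_, hmain⟩
  -- the products
  let Y : X → ℍ → ℂ := fun x τ => F x τ * H τ ^ M
  have e1 : ∀ x (γ : SL(2, ℤ)), Y x ∣[(w : ℤ)] γ =
      fun τ => (F x ∣[((κ + 1 : ℕ) : ℤ)] γ) τ * (H ∣[(kH : ℤ)] γ) τ ^ M := by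
    intro x γ
    rw [hw']
    exact H645.slash_mul_pow (κ + 1) kH M (F x) H γ
  have e2 : ∀ x ∈ S, ∀ γ : SL(2, ℤ),
      Ex (⊤ : Subring ℂ).toAddSubgroup (R γ * R' γ) (Y x ∣[(w : ℤ)] γ) := by
    intro x hx γ
    rw [e1]
    exact Ex_top_mul_pow (hR γ) (hR' γ) (Ex_top (hE γ x hx)) (hH7 γ) M
  have e3 : ∀ x ∈ S, ∀ γ : SL(2, ℤ), γ ∈ Gamma1 N → (2 ^ s : ℤ) ∣ γ 1 0 →
      Y x ∣[(w : ℤ)] γ = Y x := by
    intro x hx γ hγ h2
    rw [e1, hinv x hx γ hγ h2, hH2 γ h2]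
  have e4 : ∀ x ∈ S, MDifferentiable 𝓘(ℂ) 𝓘(ℂ) (Y x) := by
    intro x hx
    have h := e2 x hx 1
    rw [SlashAction.slash_one] at h
    exact H889.Ex.mdiff h
  have key : ∀ x, ∃ G : MF N w, x ∈ S → ((G : ℍ → ℂ) = ∑ γ ∈ reps, Y x ∣[(w : ℤ)] γ ∧
      ∀ (ℓ : PA N) (δ : SL(2, ℤ)), ((N * 2 ^ s : ℕ) : ℤ) ∣ δ 1 0 → (N : ℤ) ∣ δ 1 1 - ℓ.1 →
        dFun N w ℓ G = ∑ γ ∈ reps, (Y x ∣[(w : ℤ)] δ) ∣[(w : ℤ)] γ) := by
    intro x
    by_cases hx : x ∈ S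
    · obtain ⟨G, h2, h3⟩ := htr w (Y x) (e4 x hx) (e3 x hx) fun γ => H889.Ex.bdd (e2 x hx γ)
      exact ⟨G, fun _ => ⟨h2, h3⟩⟩
    · exact ⟨0, fun h => absurd h hx⟩
  choose Φ hΦ using key
  have hMn : ∀ γ ∈ reps, n + B γ ≤ M := by
    intro γ hγ
    have h2 : n + Bt < 2 ^ (n + Bt) := Nat.lt_two_pow_self
    have h3 := hB γ hγ
    omega
  refine ⟨Φ, fun x hx => ⟨?_, fun ℓ => ?_⟩⟩
  · -- the congruence
    obtain ⟨h2, -⟩ := hΦ x hx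
    have h20 : (2 : ℂ) ≠ 0 := two_ne_zero
    -- the terms `γ ≠ 1`
    have e5 : ∀ γ ∈ reps.erase 1, Ex (mulS ((2 : ℂ) ^ n) O) Rt (Y x ∣[(w : ℤ)] γ) := by
      intro γ hγ
      have hγ' := Finset.mem_of_mem_erase hγ
      refine hup γ hγ' ?_
      rw [e1]
      have h3 : Ex (mulS ((2 : ℂ)⁻¹ ^ B γ * 2 ^ M) O) (R γ * R' γ)
          (fun τ => (F x ∣[((κ + 1 : ℕ) : ℤ)] γ) τ * (H ∣[(kH : ℤ)] γ) τ ^ M) := by
        refine Ex.mul mulS_mul (Ex.up (hR γ) (hR' γ) (hE γ x hx)) ?_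
        rw [mul_comm (R γ)]
        exact Ex_mulS_pow (Ex.up (hR' γ) (hR γ)
          (hH8 γ (hr2 γ hγ' (Finset.ne_of_mem_erase hγ)))) M
      refine Ex.mono (mulS_le ⟨2 ^ (M - (n + B γ)), O.pow_mem (ofNat_mem O 2) _, ?_⟩) h3
      have h4 : (2 : ℂ) ^ M = 2 ^ n * 2 ^ B γ * 2 ^ (M - (n + B γ)) := by
        rw [← pow_add, ← pow_add]
        congr 1
        have := hMn γ hγ'
        omega
      rw [h4, inv_pow]
      field_simp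
    -- the term `γ = 1`
    have e6 : Ex (mulS ((2 : ℂ) ^ n) O) Rt (fun τ => Y x τ - F x τ) := by
      refine hup 1 h1 ?_
      have h3 := hE 1 x hx
      rw [SlashAction.slash_one] at h3
      have h4 : Ex O.toAddSubgroup 1 (fun τ => (H τ ^ M - 1) / 2 ^ (n + Bt + 1)) :=
        Ex.one_add_pow hH4 (n + Bt)
      have h5 : Ex (mulS ((2 : ℂ) ^ (n + Bt + 1)) O) 1 (fun τ => H τ ^ M - 1) := by
        refine Ex.congr (fun τ => ?_) (Ex.smul (c := 2 ^ (n + Bt + 1))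
          (B := mulS ((2 : ℂ) ^ (n + Bt + 1)) O) (fun a ha => ⟨a, ha, rfl⟩) h4)
        field_simp
      have h6 : Ex (mulS ((2 : ℂ) ^ (n + Bt + 1)) O) (R 1 * R' 1)
          (fun τ => H τ ^ M - 1) := by
        have := Ex.up one_pos (Nat.mul_pos (hR 1) (hR' 1)) h5
        rwa [one_mul] at this
      have h7 : Ex (mulS ((2 : ℂ)⁻¹ ^ B 1 * 2 ^ (n + Bt + 1)) O) (R 1 * R' 1)
          (fun τ => F x τ * (H τ ^ M - 1)) :=
        Ex.mul mulS_mul (Ex.up (hR 1) (hR' 1) h3) h6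
      refine Ex.congr (fun τ => ?_) (Ex.mono (mulS_le ⟨2 ^ (Bt + 1 - B 1),
        O.pow_mem (ofNat_mem O 2) _, ?_⟩) h7)
      · show F x τ * H τ ^ M - F x τ = _
        ring
      · have h8 : (2 : ℂ) ^ (n + Bt + 1) = 2 ^ n * 2 ^ B 1 * 2 ^ (Bt + 1 - B 1) := by
          rw [← pow_add, ← pow_add]
          congr 1
          have := hB 1 h1
          omega
        rw [h8, inv_pow]
        field_simp
    have e7 : Ex (mulS ((2 : ℂ) ^ n) O) Rt (fun τ => Φ x τ - F x τ) := by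
      refine Ex.congr (fun τ => ?_) (Ex.add e6 (Ex.sum _ e5))
      rw [h2, ← Finset.add_sum_erase _ _ h1, SlashAction.slash_one, Pi.add_apply,
        Finset.sum_apply]
      ring
    have e8 : ∀ τ : ℍ, HasSum (fun j : ℕ => (qExpansion 1 (Φ x)).coeff j *
        Complex.exp (2 * Real.pi * Complex.I * j * τ)) (Φ x τ) := by
      intro τ
      refine hs_congr' (H783.hasSum_form (Φ x) τ) fun j => ?_
      congr 1
      rw [H783.qq, Function.Periodic.qParam, ← Complex.exp_nat_mul]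
      congr 1
      push_cast
      ring
    refine ⟨fun j => (qExpansion 1 (Φ x)).coeff j, fun j => ?_, e8⟩
    obtain ⟨y, hy, h3⟩ := coeff_mem hRt0 e7
      (b := fun j => (qExpansion 1 (Φ x)).coeff j - c x j) (fun τ => by
        refine hs_congr' ((e8 τ).sub (hq x hx τ)) fun j => ?_
        ring) j
    exact ⟨y, hy, by linear_combination h3⟩
  · -- the diamond operators
    obtain ⟨-, h3⟩ := hΦ x hx
    obtain ⟨h4, -⟩ := hΦ (act ℓ x) (hact ℓ x hx)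
    have h5 := h3 ℓ (gd (N * 2 ^ s) ℓ.1 (H645.PA_cop ℓ s)) dvd_rfl (by
      show (N : ℤ) ∣ (ℓ.1 : ℤ) - ℓ.1
      simp)
    have h6 : Y x ∣[(w : ℤ)] (gd (N * 2 ^ s) ℓ.1 (H645.PA_cop ℓ s)) = Y (act ℓ x) := by
      rw [e1, hdia x hx ℓ _ dvd_rfl rfl, hH2 _ ?_]
      show (2 ^ s : ℤ) ∣ ((N * 2 ^ s : ℕ) : ℤ)
      push_cast
      exact dvd_mul_left _ _
    apply DFunLike.coe_injective
    rw [H783.dia_coe, h5, h4, h6]

end Vale.Agent.P022.H227
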