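import Vale.Agent.P022.H472.Lit

/-!
P022, stage 2: the 2-power level is invisible (Serre's trace argument). Definitions and literals.
-/

open scoped ModularForm MatrixGroups Manifold NumberField
open UpperHalfPlane Matrix CongruenceSubgroup

noncomputable section

namespace Vale.Agent.P022

/-! ### 2-integral algebraic numbers, functions with 2-integral expansions -/

/-- the 2-integral algebraic numbers in `ℂ` -/
def R2 : Subring ℂ where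
  carrier := {x | ∃ s : ℕ, Odd s ∧ IsIntegral ℤ ((s : ℂ) * x)}
  mul_mem' := by
    rintro x y ⟨s, hs, hx⟩ ⟨t, ht, hy⟩
    refine ⟨s * t, hs.mul ht, ?_⟩
    have := hx.mul hy
    rwa [show ((s * t : ℕ) : ℂ) * (x * y) = (s : ℂ) * x * ((t : ℂ) * y) by push_cast; ring]
  one_mem' := ⟨1, odd_one, by simpa using isIntegral_one⟩
  add_mem' := by
    rintro x y ⟨s, hs, hx⟩ ⟨t, ht, hy⟩
    refine ⟨s * t, hs.mul ht, ?_⟩
    have h1 : IsIntegral ℤ ((t : ℂ) * (s * x)) := (isIntegral_algebraMap (x := (t : ℤ))).mul hx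
    have h2 : IsIntegral ℤ ((s : ℂ) * (t * y)) := (isIntegral_algebraMap (x := (s : ℤ))).mul hy
    have h3 := h1.add h2
    rwa [show ((s * t : ℕ) : ℂ) * (x + y) = (t : ℂ) * (s * x) + (s : ℂ) * (t * y) by
      push_cast; ring]
  zero_mem' := ⟨1, odd_one, by simpa using isIntegral_zero⟩
  neg_mem' := by
    rintro x ⟨s, hs, hx⟩
    exact ⟨s, hs, by simpa using hx.neg⟩

/-- `f` has an expansion in `exp(2πiτ/h)` with coefficients in `2^e R2` -/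
def Ex (e : ℤ) (f : ℍ → ℂ) : Prop :=
  ∃ (h : ℕ) (a : ℕ → ℂ), 0 < h ∧ (∀ n, a n ∈ R2) ∧ ∀ τ : ℍ,
    HasSum (fun n : ℕ => (2 : ℂ) ^ e * a n * Complex.exp (2 * Real.pi * Complex.I * n * τ / h))
      (f τ)

/-- upper triangular integral matrix `[a, b; 0, d]`, as an element of `GL₂(ℝ)` -/
def triZ (a b d : ℤ) (h : 0 < a * d) : GL (Fin 2) ℝ :=
  (tri a b d (by exact_mod_cast h.ne')).map (algebraMap ℚ ℝ)

/-- `g` is the integral matrix `[a, b; c, d]`, of odd positive determinant -/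
def Mx (g : GL (Fin 2) ℝ) (a b c d : ℤ) : Prop :=
  (g : Matrix (Fin 2) (Fin 2) ℝ) = !![(a : ℝ), b; c, d] ∧ 0 < a * d - b * c ∧ Odd (a * d - b * c)

/-- [RR1] sums -/
def RR1Stmt : Prop := ∀ (e : ℤ) (f g : ℍ → ℂ), Ex e f → Ex e g → Ex e (f + g)

/-- [RR2] products -/
def RR2Stmt : Prop := ∀ (e e' : ℤ) (f g : ℍ → ℂ), Ex e f → Ex e' g → Ex (e + e') (f * g)

/-- [RR3] scalars, monotony, constants -/
def RR3Stmt : Prop := (∀ (e : ℤ) (f : ℍ → ℂ) (x : ℂ), x ∈ R2 → Ex e f → Ex e (x • f)) ∧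
  (∀ (e e' : ℤ) (f : ℍ → ℂ), e' ≤ e → Ex e f → Ex e' f) ∧
  (∀ (e : ℤ) (x : ℂ), x ∈ R2 → Ex e (fun _ => (2 : ℂ) ^ e * x))

/-- [RR4] slash by upper triangular matrices -/
def RR4Stmt : Prop := ∀ (e k : ℤ) (f : ℍ → ℂ) (a b d : ℤ) (_ : 0 < a) (_ : 0 < d) (_ : Odd a)
  (_ : Odd d) (h : 0 < a * d), Ex e f → Ex e (f ∣[k] triZ a b d h)

/-- [RR5] `f ≡ 1 mod 2` implies `f ^ (2 ^ s) ≡ 1 mod 2 ^ (s + 1)` -/
def RR5Stmt : Prop := ∀ (f : ℍ → ℂ) (s : ℕ), Ex 1 (f - 1) → Ex (s + 1) (f ^ (2 ^ s) - 1)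

/-- [HER] Hermite normal form -/
def HERStmt : Prop := ∀ (g : GL (Fin 2) ℝ) (a b c d : ℤ), Mx g a b c d →
  ∃ (γ : SL(2, ℤ)) (a' b' d' : ℤ) (h : 0 < a' * d'), 0 < a' ∧ 0 < d' ∧ Odd a' ∧ Odd d' ∧
    g = (γ : GL (Fin 2) ℝ) * triZ a' b' d' h ∧ c = γ 1 0 * a'

/-- [GG] a form of level `Γ₀(2^r)`, `≡ 1` mod `2^(s+1)` at `∞` and small at the cusps which are not
equivalent to `∞` -/
def GGStmt : Prop := ∀ r : ℕ, ∃ w : ℕ, ∀ s : ℕ,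
  ∃ G : ModularForm ((Gamma0 (2 ^ r) : Subgroup SL(2, ℤ)) : Subgroup (GL (Fin 2) ℝ))
      ((2 ^ s * w : ℕ) : ℤ),
    Ex (s + 1) ((G : ℍ → ℂ) - 1) ∧
    ∀ γ : SL(2, ℤ), ¬ ((2 ^ r : ℕ) : ℤ) ∣ γ 1 0 →
      Ex (2 ^ s) ((G : ℍ → ℂ) ∣[((2 ^ s * w : ℕ) : ℤ)] γ)

/-! ### the free algebra acting on functions -/

/-- generators: `inl ℓ` is `T_ℓ`, `inr ℓ` is `ℓ S_ℓ` -/
abbrev Gn (N : ℕ) : Type := PA N ⊕ PA N

/-- `T_ℓ` on functions, linear -/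
def tEnd (N k : ℕ) (ℓ : PA N) : Module.End ℂ (ℍ → ℂ) where
  toFun := tFun N k ℓ
  map_add' f g := by
    simp only [tFun, dFun, SlashAction.add_slash, Finset.sum_add_distrib]
    abel
  map_smul' c f := by
    have h1 : ∀ (g : GL (Fin 2) ℝ), 0 < g.det.val → (c • f) ∣[(k : ℤ)] g = c • (f ∣[(k : ℤ)] g) := by
      intro g hg
      rw [ModularForm.smul_slash, UpperHalfPlane.σ, if_pos hg]
      rfl
    have hdet : ∀ (a b d : ℚ) (h : a * d ≠ 0), 0 < a * d →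
        0 < ((tri a b d h).map (algebraMap ℚ ℝ)).det.val := by
      intro a b d h hp
      have : ((tri a b d h).map (algebraMap ℚ ℝ)).det.val = ((a * d : ℚ) : ℝ) := by
        simp [tri, GeneralLinearGroup.mkOfDetNeZero, Matrix.det_fin_two]
      rw [this]
      exact_mod_cast hp
    have hl : (0 : ℚ) < ℓ.1 := by exact_mod_cast ℓ.2.1.pos
    have h2 : ∀ (F : ℍ → ℂ) (g : GL (Fin 2) ℝ), 0 < g.det.val →
        (c • F) ∣[(k : ℤ)] g = c • (F ∣[(k : ℤ)] g) := by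
      intro F g hg
      rw [ModularForm.smul_slash, UpperHalfPlane.σ, if_pos hg]
      rfl
    simp only [tFun, dFun, RingHom.id_apply, smul_add, Finset.smul_sum]
    rw [ModularForm.SL_smul_slash]
    congr 1
    · refine Finset.sum_congr rfl fun j _ => h2 _ _ (hdet _ _ _ _ (by simpa using hl))
    · exact h2 _ _ (hdet _ _ _ _ (by simpa using hl))

/-- `ℓ S_ℓ = ℓ^(k-1) ⟨ℓ⟩` on functions, linear -/
def sEnd (N k : ℕ) (ℓ : PA N) : Module.End ℂ (ℍ → ℂ) where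
  toFun f := (ℓ.1 : ℂ) ^ (k - 1) • dFun N k ℓ f
  map_add' f g := by simp only [dFun, SlashAction.add_slash, smul_add]
  map_smul' c f := by
    simp only [dFun, RingHom.id_apply]
    rw [ModularForm.SL_smul_slash, smul_comm]

/-- the action of the free algebra on functions, weight `k`, level `N` -/
def act (N k : ℕ) : FreeAlgebra ℤ (Gn N) →ₐ[ℤ] Module.End ℂ (ℍ → ℂ) :=
  FreeAlgebra.lift ℤ (Sum.elim (tEnd N k) (sEnd N k))

/-- a prime `∤ 2N` is a prime `∤ 2 N 2^r` -/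
def PA.lv {N : ℕ} (r : ℕ) (ℓ : PA N) : PA (N * 2 ^ r) :=
  ⟨ℓ.1, ℓ.2.1, fun h => by
    rcases (Nat.Prime.dvd_mul ℓ.2.1).1 h with h | h
    · exact ℓ.2.2 (h.mul_right N)
    · rcases (Nat.Prime.dvd_mul ℓ.2.1).1 h with h | h
      · exact ℓ.2.2 (h.mul_left 2)
      · exact ℓ.2.2 ((ℓ.2.1.dvd_of_dvd_pow h).mul_right N)⟩

/-- the same word at level `N 2^r` -/
def lvA (N r : ℕ) : FreeAlgebra ℤ (Gn N) →ₐ[ℤ] FreeAlgebra ℤ (Gn (N * 2 ^ r)) :=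
  FreeAlgebra.lift ℤ (fun s => FreeAlgebra.ι ℤ (Sum.map (PA.lv r) (PA.lv r) s))

/-- `P` kills `M_k(Γ₁(N))` -/
def Kill (N k : ℕ) (P : FreeAlgebra ℤ (Gn N)) : Prop := ∀ f : MF N k, act N k P f = 0

/-- [SERRE] the 2-power level is invisible -/
def SERREStmt : Prop := ∀ (N r k : ℕ) (_ : 0 < N) (_ : 0 < k) (F : MF (N * 2 ^ r) k)
  (_ : ∀ γ ∈ Gamma1 N, ((2 ^ r : ℕ) : ℤ) ∣ γ 1 0 → (F : ℍ → ℂ) ∣[(k : ℤ)] γ = F)
  (_ : ∀ γ : SL(2, ℤ), ∃ e : ℤ, Ex e ((F : ℍ → ℂ) ∣[(k : ℤ)] γ)) (n : ℕ),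
  ∃ k0 : ℕ, ∀ P : FreeAlgebra ℤ (Gn N), (∀ k', 0 < k' → k' ≤ k0 → Kill N k' P) →
    Ex n (act (N * 2 ^ r) k (lvA N r P) F)

/-- [CUSP] the theta series of an integral valued periodic function has expansions with
coefficients in `2^e R2` at all cusps -/
def CUSPStmt : Prop := ∀ (a b c : ℤ) (D : ℕ) (_ : 0 < a) (_ : 0 < D)
  (_ : b ^ 2 - 4 * a * c = -(D : ℤ)) (κ m : ℕ) (_ : 0 < m) (f : ℤ × ℤ → ℤ)
  (_ : Per m (fun v => (f v : ℂ))) (γ : SL(2, ℤ)),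
  ∃ e : ℤ, Ex e ((fun τ : ℍ => th a b c D κ (fun v => (f v : ℂ)) τ) ∣[((κ + 1 : ℕ) : ℤ)] γ)

/-- [TR1] from `ℂ` to `E` -/
def TR1Stmt : Prop := ∀ (K : Type) [Field K] [NumberField K] (σ : K →+* ℂ)
  (E : Type) [NontriviallyNormedField E] [NormedAlgebra ℚ_[2] E] [IsUltrametricDist E]
  (ι : K →+* E) (x : K) (n : ℕ) (y : ℂ) (_ : y ∈ R2) (_ : σ x = 2 ^ n * y),
  ‖ι x‖ ≤ (2 : ℝ)⁻¹ ^ n

/-- [TR2] uniqueness of expansions: the coefficient of `exp(2πiτ)` -/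
def TR2Stmt : Prop := ∀ (n : ℕ) (f : ℍ → ℂ) (_ : Ex n f) (c : ℕ → ℂ)
  (_ : ∀ τ : ℍ, HasSum (fun j : ℕ => c j * Complex.exp (2 * Real.pi * Complex.I * j * τ)) (f τ))
  (j : ℕ), ∃ y ∈ R2, c j = 2 ^ n * y

end Vale.Agent.P022
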