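import Vale.Agent.P022.H227.EichD

/-!
# P022-L3, chapter C: from Eichler integrals to cocycles with polynomial values
-/

open UpperHalfPlane Filter Topology
open scoped MatrixGroups ModularForm Manifold

noncomputable section

namespace Vale.Agent.P022.H227

/-- integral matrices -/
abbrev M2 : Type := Matrix (Fin 2) (Fin 2) ℤ

/-- an integral matrix of positive determinant in `GL₂(ℝ)` -/
def gl (A : M2) (hA : 0 < A.det) : GL (Fin 2) ℝ :=
  Matrix.GeneralLinearGroup.mkOfDetNeZero (A.map (Int.castRingHom ℝ)) (by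
    rw [← RingHom.mapMatrix_apply, ← RingHom.map_det]
    simpa using hA.ne')

lemma gl_val (A : M2) (hA : 0 < A.det) (i j : Fin 2) : (gl A hA) i j = (A i j : ℝ) := rfl

lemma gl_det (A : M2) (hA : 0 < A.det) : (gl A hA).val.det = (A.det : ℝ) := by
  have : (gl A hA).val = (Int.castRingHom ℝ).mapMatrix A := rfl
  rw [this, ← RingHom.map_det]
  rfl

lemma gl_det_pos (A : M2) (hA : 0 < A.det) : 0 < (gl A hA).val.det := by
  rw [gl_det]; exact_mod_cast hA

lemma gl_mul (A B : M2) (hA : 0 < A.det) (hB : 0 < B.det) (hAB : 0 < (A * B).det) :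
    gl (A * B) hAB = gl A hA * gl B hB := by
  ext i j
  rw [gl_val, Matrix.GeneralLinearGroup.coe_mul, Matrix.mul_apply, Matrix.mul_apply]
  simp only [gl_val]
  push_cast
  rfl

lemma gl_SL (γ : SL(2, ℤ)) (h : 0 < (γ : M2).det) : gl (γ : M2) h = (γ : GL (Fin 2) ℝ) := by
  ext i j
  rfl

/-- `(F · g)(τ) = (cτ + d)^w F(g τ)` -/
def actG (w : ℕ) (g : GL (Fin 2) ℝ) (F : ℍ → ℂ) (τ : ℍ) : ℂ := denom g τ ^ w * F (g • τ)

lemma actG_add (w : ℕ) (g : GL (Fin 2) ℝ) (F G : ℍ → ℂ) :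
    actG w g (F + G) = actG w g F + actG w g G := by
  funext τ; simp only [actG, Pi.add_apply]; ring

lemma actG_neg (w : ℕ) (g : GL (Fin 2) ℝ) (F : ℍ → ℂ) : actG w g (-F) = -actG w g F := by
  funext τ; simp only [actG, Pi.neg_apply]; ring

lemma actG_sub (w : ℕ) (g : GL (Fin 2) ℝ) (F G : ℍ → ℂ) :
    actG w g (F - G) = actG w g F - actG w g G := by
  rw [sub_eq_add_neg, actG_add, actG_neg, ← sub_eq_add_neg]

lemma actG_smul (w : ℕ) (g : GL (Fin 2) ℝ) (c : ℂ) (F : ℍ → ℂ) :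
    actG w g (c • F) = c • actG w g F := by
  funext τ; simp only [actG, Pi.smul_apply, smul_eq_mul]; ring

lemma actG_sum (w : ℕ) (g : GL (Fin 2) ℝ) {ι : Type*} (s : Finset ι) (F : ι → ℍ → ℂ) :
    actG w g (∑ i ∈ s, F i) = ∑ i ∈ s, actG w g (F i) := by
  funext τ; simp only [actG, Finset.sum_apply, Finset.mul_sum]

lemma actG_mul (w : ℕ) (g h : GL (Fin 2) ℝ) (hh : 0 < h.val.det) (F : ℍ → ℂ) :
    actG w (g * h) F = actG w h (actG w g F) := by
  funext τ
  have h1 := denom_cocycle_σ g h τ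
  have hσ : ∀ z : ℂ, σ h z = z := fun z => by
    have hh' : 0 < h.det.val := hh
    rw [σ, if_pos hh', ContinuousAlgEquiv.refl_apply]
  rw [hσ] at h1
  simp only [actG, h1, mul_smul, mul_pow]
  ring

lemma actG_eq_slash (w : ℕ) (γ : SL(2, ℤ)) (F : ℍ → ℂ) :
    actG w (γ : GL (Fin 2) ℝ) F = F ∣[(-(w : ℤ))] γ := by
  funext τ
  rw [ModularForm.SL_slash_apply, neg_neg, zpow_natCast, mul_comm]
  rfl

lemma slash_eq_of_pos {w : ℕ} (α : GL (Fin 2) ℝ) (hα : 0 < α.val.det) (f : ℍ → ℂ) :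
    (fun τ : ℍ => (α.val.det : ℂ) ^ (w + 1) * (denom α τ ^ (w + 2))⁻¹ * f (α • τ)) =
      f ∣[((w : ℤ) + 2)] α := by
  have hα' : 0 < α.det.val := hα
  have hd : |α.det.val| = α.val.det := abs_of_pos hα
  have hσ : ∀ z : ℂ, σ α z = z := fun z => by
    rw [σ, if_pos hα', ContinuousAlgEquiv.refl_apply]
  funext τ
  have hden := denom_ne_zero α τ
  rw [ModularForm.slash_apply, hσ, hd]
  have e1 : ((w : ℤ) + 2 - 1) = ((w + 1 : ℕ) : ℤ) := by push_cast; ring
  have e2 : (-((w : ℤ) + 2)) = -((w + 2 : ℕ) : ℤ) := by push_cast; ring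
  rw [e1, e2, zpow_natCast, zpow_neg, zpow_natCast]
  ring

lemma Eich.act {w : ℕ} {f F : ℍ → ℂ} (hF : Eich w f F) (α : GL (Fin 2) ℝ)
    (hα : 0 < α.val.det) : Eich w (f ∣[((w : ℤ) + 2)] α) (actG w α F) := by
  have h := hF.comp α hα
  rw [slash_eq_of_pos α hα] at h
  exact h

/-! ### normalised Eichler integrals -/

/-- `F τ = ∫_I^τ f(z) (z - τ)^w dz` -/
def EichN (w : ℕ) (f F : ℍ → ℂ) : Prop :=
  ∃ A : ℕ → ℍ → ℂ,
    (∀ j ≤ w, ∀ τ : ℍ, HasDerivAt (A j ∘ ofComplex) ((τ : ℂ) ^ j * f τ) (τ : ℂ)) ∧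
    (∀ j ≤ w, A j I = 0) ∧
    ∀ τ : ℍ, F τ = ∑ i ∈ Finset.range (w + 1),
      ((Polynomial.X - Polynomial.C (τ : ℂ)) ^ w).coeff i * A i τ

lemma EichN.eich {w : ℕ} {f F : ℍ → ℂ} (h : EichN w f F) : Eich w f F := by
  obtain ⟨A, h1, _, h3⟩ := h
  exact ⟨A, h1, h3⟩

lemma exists_eichN (w : ℕ) {f : ℍ → ℂ} (hf : MDiff f) : ∃ F, EichN w f F := by
  obtain ⟨F, A, h1, _⟩ := exists_eich w hf
  refine ⟨_, fun j τ => A j τ - A j I, fun j hj τ => ?_, fun j _ => sub_self _, fun τ => rfl⟩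
  have := (h1 j hj τ).sub_const (A j I)
  exact this

lemma EichN.add {w : ℕ} {f g F G : ℍ → ℂ} (hF : EichN w f F) (hG : EichN w g G) :
    EichN w (f + g) (F + G) := by
  obtain ⟨A, hA, hA0, hF⟩ := hF
  obtain ⟨B, hB, hB0, hG⟩ := hG
  refine ⟨fun j => A j + B j, fun j hj τ => ?_, fun j hj => ?_, fun τ => ?_⟩
  · refine ((hA j hj τ).add (hB j hj τ)).congr_deriv ?_
    simp only [Pi.add_apply]
    ring
  · simp [hA0 j hj, hB0 j hj]
  · simp only [Pi.add_apply, hF, hG, mul_add, Finset.sum_add_distrib]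

lemma EichN.smul {w : ℕ} {f F : ℍ → ℂ} (c : ℂ) (hF : EichN w f F) :
    EichN w (c • f) (c • F) := by
  obtain ⟨A, hA, hA0, hF⟩ := hF
  refine ⟨fun j => c • A j, fun j hj τ => ?_, fun j hj => ?_, fun τ => ?_⟩
  · refine ((hA j hj τ).const_smul c).congr_deriv ?_
    simp only [Pi.smul_apply, smul_eq_mul]
    ring
  · simp [hA0 j hj]
  · simp only [Pi.smul_apply, hF, smul_eq_mul, Finset.mul_sum]
    exact Finset.sum_congr rfl fun i _ => by ring

lemma EichN.unique {w : ℕ} {f F G : ℍ → ℂ} (hF : EichN w f F) (hG : EichN w f G) : F = G := by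
  obtain ⟨A, hA, hA0, hF⟩ := hF
  obtain ⟨B, hB, hB0, hG⟩ := hG
  funext τ
  rw [hF, hG]
  refine Finset.sum_congr rfl fun i hi => ?_
  have hi' : i ≤ w := by have := Finset.mem_range.1 hi; omega
  obtain ⟨c, hc⟩ := eqConst_of_deriv (G := fun τ => A i τ - B i τ) (fun τ => by
    refine ((hA i hi' τ).sub (hB i hi' τ)).congr_deriv (sub_self _))
  have h0 := hc I
  rw [hA0 i hi', hB0 i hi', sub_self] at h0
  have h1 := hc τ
  rw [← h0] at h1
  rw [sub_eq_zero.1 h1]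

/-- the normalised Eichler integral -/
def EI (w : ℕ) (f : ℍ → ℂ) : ℍ → ℂ :=
  open Classical in if h : MDiff f then (exists_eichN w h).choose else 0

lemma EI_spec (w : ℕ) {f : ℍ → ℂ} (hf : MDiff f) : EichN w f (EI w f) := by
  rw [EI, dif_pos hf]
  exact (exists_eichN w hf).choose_spec

lemma EI_add (w : ℕ) {f g : ℍ → ℂ} (hf : MDiff f) (hg : MDiff g) :
    EI w (f + g) = EI w f + EI w g :=
  (EI_spec w (hf.add hg)).unique ((EI_spec w hf).add (EI_spec w hg))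

lemma EI_smul (w : ℕ) (c : ℂ) {f : ℍ → ℂ} (hf : MDiff f) : EI w (c • f) = c • EI w f :=
  (EI_spec w (hf.const_smul c)).unique ((EI_spec w hf).smul c)

/-! ### polynomial functions -/

/-- the function `τ ↦ ∑ p_j τ^j` -/
def toF {w : ℕ} (p : Fin (w + 1) → ℂ) (τ : ℍ) : ℂ := ∑ j, p j * (τ : ℂ) ^ (j : ℕ)

lemma toF_add {w : ℕ} (p q : Fin (w + 1) → ℂ) : toF (p + q) = toF p + toF q := by
  funext τ; simp only [toF, Pi.add_apply, add_mul, Finset.sum_add_distrib]

lemma toF_smul {w : ℕ} (c : ℂ) (p : Fin (w + 1) → ℂ) : toF (c • p) = c • toF p := by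
  funext τ
  simp only [toF, Pi.smul_apply, smul_eq_mul, Finset.mul_sum]
  exact Finset.sum_congr rfl fun i _ => by ring

lemma toF_sub {w : ℕ} (p q : Fin (w + 1) → ℂ) : toF (p - q) = toF p - toF q := by
  funext τ; simp only [toF, Pi.sub_apply, sub_mul, Finset.sum_sub_distrib]

lemma toF_sum {w : ℕ} {ι : Type*} (s : Finset ι) (p : ι → Fin (w + 1) → ℂ) :
    toF (∑ i ∈ s, p i) = ∑ i ∈ s, toF (p i) := by
  funext τ
  simp only [toF, Finset.sum_apply, Finset.sum_mul]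
  rw [Finset.sum_comm]

/-- the polynomial of `p` -/
def toP {w : ℕ} (p : Fin (w + 1) → ℂ) : Polynomial ℂ :=
  ∑ j, Polynomial.C (p j) * Polynomial.X ^ (j : ℕ)

lemma toP_eval {w : ℕ} (p : Fin (w + 1) → ℂ) (τ : ℍ) : (toP p).eval (τ : ℂ) = toF p τ := by
  simp [toP, toF, Polynomial.eval_finsetSum]

lemma toP_coeff {w : ℕ} (p : Fin (w + 1) → ℂ) (j : Fin (w + 1)) : (toP p).coeff j = p j := by
  rw [toP, Polynomial.finsetSum_coeff]
  rw [Finset.sum_eq_single j]
  · simp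
  · intro i _ hi
    rw [Polynomial.coeff_C_mul, Polynomial.coeff_X_pow]
    rw [if_neg, mul_zero]
    intro h
    exact hi (Fin.ext h.symm)
  · intro h
    exact absurd (Finset.mem_univ _) h

lemma toF_injective {w : ℕ} : Function.Injective (toF (w := w)) := by
  intro p q h
  have h1 : toP (p - q) = 0 := by
    apply Polynomial.eq_zero_of_infinite_isRoot
    have hinf : Set.Infinite (Set.range fun n : ℕ => ((n : ℂ) + Complex.I)) := by
      apply Set.infinite_range_of_injective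
      intro a b hab
      simpa using hab
    refine hinf.mono ?_
    rintro _ ⟨n, rfl⟩
    have him : 0 < ((n : ℂ) + Complex.I).im := by simp
    have h2 := toP_eval (p - q) ⟨(n : ℂ) + Complex.I, him⟩
    have h3 : toF (p - q) ⟨(n : ℂ) + Complex.I, him⟩ = 0 := by
      rw [toF_sub, Pi.sub_apply, h, sub_self]
    rw [h3] at h2
    exact h2
  funext j
  have h2 := toP_coeff (p - q) j
  rw [h1, Polynomial.coeff_zero] at h2
  exact (sub_eq_zero.1 h2.symm)

lemma exists_toF {w : ℕ} {u : ℍ → ℂ} (h : PolF w u) : ∃ p : Fin (w + 1) → ℂ, toF p = u := by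
  obtain ⟨P, hP, hu⟩ := h
  refine ⟨fun j => P.coeff j, ?_⟩
  funext τ
  rw [hu, Polynomial.eval_eq_sum_range' (n := w + 1) (by omega), toF, Finset.sum_range]

lemma polF_toF {w : ℕ} (p : Fin (w + 1) → ℂ) : PolF w (toF p) := by
  refine ⟨toP p, ?_, fun τ => (toP_eval p τ).symm⟩
  refine Polynomial.natDegree_sum_le_of_forall_le _ _ fun j _ => ?_
  refine (Polynomial.natDegree_C_mul_X_pow_le _ _).trans ?_
  omega

end Vale.Agent.P022.H227
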