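import Vale.Agent.P022.H227.Phi
import Vale.Agent.P022.H527.L3.Mat

/-!
# P022-L3, chapter C: the map `f ↦ (γ ↦ F|γ - F)` and the Hecke operators
-/

open UpperHalfPlane Filter Topology
open scoped MatrixGroups ModularForm Manifold

noncomputable section

namespace Vale.Agent.P022.H227

open Vale.Agent.P022.H527.L3 (rho Rep)

variable {Γ : Subgroup SL(2, ℤ)} {w : ℕ} {k : ℤ}

lemma det_SL_pos (γ : SL(2, ℤ)) : 0 < (γ : M2).det := by
  rw [γ.det_coe]; exact one_pos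

lemma mdf (f : ModularForm (Γ : Subgroup (GL (Fin 2) ℝ)) k) : MDiff (f : ℍ → ℂ) := f.holo'

lemma actG_SL_mul (γ δ : SL(2, ℤ)) (F : ℍ → ℂ) :
    actG w ((γ * δ : SL(2, ℤ)) : GL (Fin 2) ℝ) F =
      actG w (δ : GL (Fin 2) ℝ) (actG w (γ : GL (Fin 2) ℝ) F) := by
  rw [actG_eq_slash, actG_eq_slash, actG_eq_slash, SlashAction.slash_mul]

lemma exists_phi (hk : k = (w : ℤ) + 2) (f : ModularForm (Γ : Subgroup (GL (Fin 2) ℝ)) k)
    (γ : Γ) : ∃ p : Fin (w + 1) → ℂ,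
      toF p = actG w ((γ : SL(2, ℤ)) : GL (Fin 2) ℝ) (EI w f) - EI w f := by
  subst hk
  apply exists_toF
  rw [actG_eq_slash]
  refine cocycle_polF (EI_spec w (mdf f)).eich ?_
  exact f.slash_action_eq' _ ⟨(γ : SL(2, ℤ)), γ.2, rfl⟩

/-- **the cocycle of a modular form** of weight `k = w + 2` -/
def Phi (hk : k = (w : ℤ) + 2) :
    ModularForm (Γ : Subgroup (GL (Fin 2) ℝ)) k →ₗ[ℂ] (Γ → Fin (w + 1) → ℂ) where
  toFun f γ := (exists_phi hk f γ).choose
  map_add' f g := by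
    funext γ
    apply toF_injective
    have h1 := (exists_phi hk (f + g) γ).choose_spec
    have h2 := (exists_phi hk f γ).choose_spec
    have h3 := (exists_phi hk g γ).choose_spec
    rw [h1, Pi.add_apply, toF_add, h2, h3, FunLike.coe_add, EI_add w (mdf f) (mdf g),
      actG_add]
    abel
  map_smul' c f := by
    funext γ
    apply toF_injective
    have h1 := (exists_phi hk (c • f) γ).choose_spec
    have h2 := (exists_phi hk f γ).choose_spec
    have h3 : ((c • f : ModularForm (Γ : Subgroup (GL (Fin 2) ℝ)) k) : ℍ → ℂ) =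
      c • (f : ℍ → ℂ) := rfl
    rw [h1, RingHom.id_apply, Pi.smul_apply, toF_smul, h2, h3, EI_smul w c (mdf f), actG_smul,
      smul_sub]

theorem Phi_spec (hk : k = (w : ℤ) + 2) (f : ModularForm (Γ : Subgroup (GL (Fin 2) ℝ)) k)
    (γ : Γ) : toF (Phi hk f γ) =
      actG w ((γ : SL(2, ℤ)) : GL (Fin 2) ℝ) (EI w f) - EI w f :=
  (exists_phi hk f γ).choose_spec

/-- `act` is the action `(p|A)(τ) = (cτ + d)^w p(Aτ)` on polynomials of degree at most `w` -/
def IsAct (w : ℕ) (act : M2 → (Fin (w + 1) → ℂ) →+ (Fin (w + 1) → ℂ)) : Prop :=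
  ∀ (A : M2) (hA : 0 < A.det) (p : Fin (w + 1) → ℂ), toF (act A p) = actG w (gl A hA) (toF p)

variable {act : M2 → (Fin (w + 1) → ℂ) →+ (Fin (w + 1) → ℂ)}

theorem Phi_coc (hk : k = (w : ℤ) + 2) (hact : IsAct w act)
    (f : ModularForm (Γ : Subgroup (GL (Fin 2) ℝ)) k) (γ δ : Γ) :
    Phi hk f (γ * δ) = act ((δ : SL(2, ℤ)) : M2) (Phi hk f γ) + Phi hk f δ := by
  apply toF_injective
  rw [toF_add, hact _ (det_SL_pos _), Phi_spec, Phi_spec, Phi_spec, gl_SL, Subgroup.coe_mul,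
    actG_SL_mul, actG_sub]
  abel

theorem Phi_inj [Γ.FiniteIndex] (hk : k = (w : ℤ) + 2) (hact : IsAct w act)
    (f : ModularForm (Γ : Subgroup (GL (Fin 2) ℝ)) k)
    (b : Fin (w + 1) → ℂ) (hb : ∀ γ : Γ, Phi hk f γ = act ((γ : SL(2, ℤ)) : M2) b - b) :
    f = 0 := by
  subst hk
  refine modularForm_eq_zero Γ f (EI_spec w (mdf f)).eich (polF_toF b) fun γ hγ => ?_
  have h1 := congrArg toF (hb ⟨γ, hγ⟩)
  rw [Phi_spec, toF_sub, hact _ (det_SL_pos _), gl_SL, actG_eq_slash, actG_eq_slash] at h1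
  exact h1

/-- **Hecke equivariance** modulo coboundaries, for any system of representatives -/
theorem Phi_hecke (hk : k = (w : ℤ) + 2) (hact : IsAct w act)
    {ι : Type*} [Fintype ι] {α : ι → M2} (h : Rep (rho Γ) α) (hα : ∀ i, 0 < (α i).det)
    (f g : ModularForm (Γ : Subgroup (GL (Fin 2) ℝ)) k)
    (hg : (g : ℍ → ℂ) = ∑ i, (f : ℍ → ℂ) ∣[k] gl (α i) (hα i)) :
    ∃ b : Fin (w + 1) → ℂ, ∀ γ : Γ,
      Phi hk g γ - h.hc act (Phi hk f) γ = act ((γ : SL(2, ℤ)) : M2) b - b := by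
  set E := EI w f with hE
  have hfE : Eich w f E := (EI_spec w (mdf f)).eich
  have h1 : Eich w g (∑ i, actG w (gl (α i) (hα i)) E) := by
    rw [hg]
    subst hk
    exact Eich.sum _ fun i _ => hfE.act _ (gl_det_pos _ _)
  obtain ⟨b, hb⟩ := exists_toF ((EI_spec w (mdf g)).eich.sub_pol h1)
  refine ⟨b, fun γ => toF_injective ?_⟩
  have hγ : 0 < (((γ : SL(2, ℤ)) : GL (Fin 2) ℝ)).val.det := by
    rw [← gl_SL _ (det_SL_pos _)]
    exact gl_det_pos _ _
  have h2 : toF (h.hc act (Phi hk f) γ) =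
      actG w ((γ : SL(2, ℤ)) : GL (Fin 2) ℝ) (∑ i, actG w (gl (α i) (hα i)) E) -
        ∑ i, actG w (gl (α i) (hα i)) E := by
    rw [Rep.hc, toF_sum]
    have e : ∑ i, actG w (gl (α (h.nx γ i)) (hα _)) E = ∑ i, actG w (gl (α i) (hα i)) E :=
      Equiv.sum_comp (h.perm γ) fun i => actG w (gl (α i) (hα i)) E
    rw [actG_sum]
    conv_rhs => rw [← e]
    rw [← Finset.sum_sub_distrib]
    refine Finset.sum_congr rfl fun i _ => ?_
    rw [hact _ (hα _), Phi_spec, actG_sub, ← actG_mul _ _ _ (gl_det_pos _ _),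
      ← actG_mul _ _ _ hγ]
    congr 2
    rw [← gl_SL _ (det_SL_pos _), ← gl_SL _ (det_SL_pos _)]
    have h3 := h.eq γ i
    rw [Vale.Agent.P022.H527.L3.rho_apply, Vale.Agent.P022.H527.L3.rho_apply] at h3
    have hp1 : 0 < (((h.el γ i : SL(2, ℤ)) : M2) * α (h.nx γ i)).det := by
      rw [Matrix.det_mul]
      exact mul_pos (det_SL_pos _) (hα _)
    have hp2 : 0 < (α i * ((γ : SL(2, ℤ)) : M2)).det := by
      rw [Matrix.det_mul]
      exact mul_pos (hα _) (det_SL_pos _)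
    rw [← gl_mul _ _ _ _ hp1, ← gl_mul _ _ _ _ hp2]
    congr 1
    exact h3.symm
  rw [toF_sub, Phi_spec, h2, toF_sub, hact _ (det_SL_pos _), gl_SL, hb, actG_sub]
  abel

end Vale.Agent.P022.H227
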