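import Vale.Agent.P022.H227.PhiB
import Vale.Agent.P022.H420.L3.Pw
import Vale.Agent.P022.H472.Lit2
import Vale.Agent.P022.H138.L3.Defs

/-!
# P022-L3, chapter C: the Hecke operators `T_ℓ`, `⟨ℓ⟩` through the representatives `alp M ℓ δ`
-/

open UpperHalfPlane Filter Topology CongruenceSubgroup
open scoped MatrixGroups ModularForm Manifold

noncomputable section

namespace Vale.Agent.P022.H227

open Vale.Agent.P022 Vale.Agent.P022.L3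

lemma toF_eq_evP {w : ℕ} (p : Fin (w + 1) → ℂ) (τ : ℍ) : toF p τ = H420.L3.evP w p (τ : ℂ) := rfl

/-- helper420's action is the action on polynomial functions -/
theorem isAct_act (w : ℕ) : IsAct w (H420.L3.act w) := by
  intro A hA p
  funext τ
  have hden : denom (gl A hA) τ = (A 1 0 : ℂ) * τ + (A 1 1 : ℂ) := by
    simp only [denom, gl_val, Complex.ofReal_intCast]
  have h0 := denom_ne_zero (gl A hA) τ
  rw [hden] at h0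
  have h1 := H420.L3.evP_act w A p (τ : ℂ) h0
  have h2 := coe_smul_of_det_pos (g := gl A hA) (gl_det_pos A hA) τ
  have hnum : num (gl A hA) τ = (A 0 0 : ℂ) * τ + (A 0 1 : ℂ) := by
    simp only [num, gl_val, Complex.ofReal_intCast]
  rw [toF_eq_evP, h1, actG, toF_eq_evP, h2, hnum, hden]

/-! ### representatives -/

section reps

variable {N k : ℕ}

lemma det_alp (M ℓ : ℕ) (δ : SL(2, ℤ)) (i : Option (Fin ℓ)) : (alp M ℓ δ i).det = ℓ := by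
  cases i with
  | none => simp [alp, Matrix.det_fin_two]
  | some j => simp [alp, Matrix.det_fin_two]

lemma det_alp_pos {M ℓ : ℕ} (hℓ : 0 < ℓ) (δ : SL(2, ℤ)) (i : Option (Fin ℓ)) :
    0 < (alp M ℓ δ i).det := by
  rw [det_alp]; exact_mod_cast hℓ

/-- `[1, x; 0, ℓ]` -/
def upz (ℓ : ℕ) (x : ℤ) : M2 := !![1, x; 0, (ℓ : ℤ)]

lemma upz_pos {ℓ : ℕ} (hℓ : 0 < ℓ) (x : ℤ) : 0 < (upz ℓ x).det := by
  simp [upz, Matrix.det_fin_two, hℓ]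

lemma up_eq {ℓ : ℕ} (hℓ : 0 < ℓ) (j : ℕ) : up ℓ hℓ.ne' j = gl (upz ℓ (j : ℤ)) (upz_pos hℓ _) := by
  ext a b
  fin_cases a <;> fin_cases b <;> simp [up, tri, gl, upz, Matrix.GeneralLinearGroup.mkOfDetNeZero]

lemma dn_pos {ℓ : ℕ} (hℓ : 0 < ℓ) : 0 < (!![(ℓ : ℤ), 0; 0, 1] : M2).det := by
  simp [Matrix.det_fin_two, hℓ]

lemma dn_eq {ℓ : ℕ} (hℓ : 0 < ℓ) : dn ℓ hℓ.ne' = gl !![(ℓ : ℤ), 0; 0, 1] (dn_pos hℓ) := by
  ext a b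
  fin_cases a <;> fin_cases b <;> simp [dn, tri, gl, Matrix.GeneralLinearGroup.mkOfDetNeZero]

lemma slash_T {N k : ℕ} (f : MF N k) (t : ℤ) :
    (f : ℍ → ℂ) ∣[(k : ℤ)] (ModularGroup.T ^ t : SL(2, ℤ)) = f := by
  refine f.slash_action_eq' _ ⟨ModularGroup.T ^ t, ?_, rfl⟩
  rw [SetLike.mem_coe, Gamma1_mem, ModularGroup.coe_T_zpow]
  simp

lemma slash_upz {N k ℓ : ℕ} (hℓ : 0 < ℓ) (f : MF N k) (x t : ℤ) :
    (f : ℍ → ℂ) ∣[(k : ℤ)] gl (upz ℓ (x + ℓ * t)) (upz_pos hℓ _) =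
      (f : ℍ → ℂ) ∣[(k : ℤ)] gl (upz ℓ x) (upz_pos hℓ _) := by
  have h1 : upz ℓ (x + ℓ * t) = ((ModularGroup.T ^ t : SL(2, ℤ)) : M2) * upz ℓ x := by
    rw [ModularGroup.coe_T_zpow]
    ext a b
    fin_cases a <;> fin_cases b <;> simp [upz, Matrix.mul_apply, Fin.sum_univ_two]
    ring
  have h2 : 0 < (((ModularGroup.T ^ t : SL(2, ℤ)) : M2) * upz ℓ x).det := by
    rw [← h1]; exact upz_pos hℓ _
  have h3 : gl (upz ℓ (x + ℓ * t)) (upz_pos hℓ _) =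
      ((ModularGroup.T ^ t : SL(2, ℤ)) : GL (Fin 2) ℝ) * gl (upz ℓ x) (upz_pos hℓ _) := by
    rw [← gl_SL _ (det_SL_pos _), ← gl_mul _ _ _ _ h2]
    congr 1
  rw [h3, SlashAction.slash_mul]
  congr 1
  exact slash_T f t

lemma slash_upz_congr {N k ℓ : ℕ} (hℓ : 0 < ℓ) (f : MF N k) {x y : ℤ} (h : (ℓ : ℤ) ∣ x - y) :
    (f : ℍ → ℂ) ∣[(k : ℤ)] gl (upz ℓ x) (upz_pos hℓ _) =
      (f : ℍ → ℂ) ∣[(k : ℤ)] gl (upz ℓ y) (upz_pos hℓ _) := by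
  obtain ⟨t, ht⟩ := h
  obtain rfl : x = y + ℓ * t := by linarith
  exact slash_upz hℓ f y t

theorem sum_upz {N k ℓ : ℕ} (hℓ : 0 < ℓ) (M : ℕ) (hc : Nat.Coprime ℓ (2 ^ M)) (f : MF N k) :
    ∑ j : Fin ℓ, (f : ℍ → ℂ) ∣[(k : ℤ)] gl (upz ℓ ((2 ^ M : ℕ) * (j.1 : ℤ))) (upz_pos hℓ _) =
      ∑ j : Fin ℓ, (f : ℍ → ℂ) ∣[(k : ℤ)] gl (upz ℓ (j.1 : ℤ)) (upz_pos hℓ _) := by
  let e : Fin ℓ → Fin ℓ := fun j => ⟨(2 ^ M * j.1) % ℓ, Nat.mod_lt _ hℓ⟩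
  have he : Function.Injective e := by
    intro a b hab
    have h1 : (2 ^ M * a.1) % ℓ = (2 ^ M * b.1) % ℓ := congrArg Fin.val hab
    have h2 : a.1 ≡ b.1 [MOD ℓ] := Nat.ModEq.cancel_left_of_coprime hc h1
    have h3 : a.1 % ℓ = b.1 % ℓ := h2
    rw [Nat.mod_eq_of_lt a.2, Nat.mod_eq_of_lt b.2] at h3
    exact Fin.ext h3
  have hb : Function.Bijective e := Finite.injective_iff_bijective.1 he
  refine Fintype.sum_bijective e hb _ _ fun j => ?_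
  refine slash_upz_congr hℓ f ?_
  have h1 := Nat.mod_add_div (2 ^ M * j.1) ℓ
  refine ⟨((2 ^ M * j.1 / ℓ : ℕ) : ℤ), ?_⟩
  have h2 : (((2 ^ M * j.1) % ℓ : ℕ) : ℤ) + (ℓ : ℤ) * ((2 ^ M * j.1 / ℓ : ℕ) : ℤ) =
      ((2 ^ M * j.1 : ℕ) : ℤ) := by exact_mod_cast h1
  have h3 : ((e j).1 : ℤ) = (((2 ^ M * j.1) % ℓ : ℕ) : ℤ) := rfl
  rw [h3]
  push_cast at h2 ⊢
  linarith

lemma isDel_Gamma0 {N M : ℕ} {a : ℤ} {δ : SL(2, ℤ)} (h : IsDel N M a δ) : δ ∈ Gamma0 N := by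
  rw [Gamma0_mem]
  have h1 : (N : ℤ) ∣ δ 1 0 := (Dvd.intro _ (by push_cast; rfl)).trans h.1
  exact (ZMod.intCast_zmod_eq_zero_iff_dvd _ _).2 h1

lemma isDel_val {N M : ℕ} {a : ℤ} {δ : SL(2, ℤ)} (h : IsDel N M a δ) :
    ((δ 1 1 : ℤ) : ZMod N) = (a : ZMod N) := by
  have h1 : (N : ℤ) ∣ δ 1 1 - a := (Dvd.intro _ (by push_cast; rfl)).trans h.2.2
  have h2 := (ZMod.intCast_zmod_eq_zero_iff_dvd _ _).2 h1
  push_cast at h2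
  exact sub_eq_zero.1 h2

variable [NeZero N]

/-- **the diamond operator** through `δ_ℓ` -/
theorem dia_isDel {M : ℕ} (ℓ : PA N) {δ : SL(2, ℤ)} (h : IsDel N M ℓ.1 δ) (f : MF N k) :
    (H783.dia k ℓ f : ℍ → ℂ) = (f : ℍ → ℂ) ∣[(k : ℤ)] δ := by
  rw [H783.dia_coe]
  refine H783.dFun_eq ℓ (isDel_Gamma0 h) ?_ f
  rw [isDel_val h]
  simp

/-- **the Hecke operator** through the representatives `alp M ℓ δ` -/
theorem Tl_alp {M : ℕ} (ℓ : PA N) {δ : SL(2, ℤ)} (h : IsDel N M ℓ.1 δ) (f : MF N k) :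
    (H783.Tl k ℓ f : ℍ → ℂ) =
      ∑ i, (f : ℍ → ℂ) ∣[(k : ℤ)] gl (alp M ℓ.1 δ i) (det_alp_pos ℓ.2.1.pos δ i) := by
  have e1 : (dFun N k ℓ f) ∣[(k : ℤ)] (dn ℓ.1 ℓ.2.1.ne_zero) =
      (f : ℍ → ℂ) ∣[(k : ℤ)] gl (alp M ℓ.1 δ none) (det_alp_pos ℓ.2.1.pos δ none) := by
    have h1 : (H783.dia k ℓ f : ℍ → ℂ) = (f : ℍ → ℂ) ∣[(k : ℤ)] δ := dia_isDel ℓ h f
    rw [H783.dia_coe] at h1
    rw [h1, dn_eq ℓ.2.1.pos, ModularForm.SL_slash, ← SlashAction.slash_mul]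
    have h2 : 0 < ((δ : M2) * !![(ℓ.1 : ℤ), 0; 0, 1]).det := det_alp_pos (M := M) ℓ.2.1.pos δ none
    have h3 : gl (alp M ℓ.1 δ none) (det_alp_pos ℓ.2.1.pos δ none) =
        (δ : GL (Fin 2) ℝ) * gl !![(ℓ.1 : ℤ), 0; 0, 1] (dn_pos ℓ.2.1.pos) := by
      rw [← gl_SL _ (det_SL_pos δ)]
      exact gl_mul _ _ (det_SL_pos _) (dn_pos ℓ.2.1.pos) h2
    rw [h3]
  have hc : Nat.Coprime ℓ.1 (2 ^ M) := by
    refine Nat.Coprime.pow_right M ?_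
    exact (Nat.Prime.coprime_iff_not_dvd ℓ.2.1).2 fun h2 => ℓ.2.2 (h2.mul_right N)
  have e2 : ∑ j : Fin ℓ.1, (f : ℍ → ℂ) ∣[(k : ℤ)] (up ℓ.1 ℓ.2.1.ne_zero j) =
      ∑ j : Fin ℓ.1, (f : ℍ → ℂ) ∣[(k : ℤ)]
        gl (alp M ℓ.1 δ (some j)) (det_alp_pos ℓ.2.1.pos δ (some j)) := by
    have h2 : ∀ j : Fin ℓ.1, (f : ℍ → ℂ) ∣[(k : ℤ)] (up ℓ.1 ℓ.2.1.ne_zero j) =
        (f : ℍ → ℂ) ∣[(k : ℤ)] gl (upz ℓ.1 (j.1 : ℤ)) (upz_pos ℓ.2.1.pos _) := by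
      intro j
      rw [← up_eq ℓ.2.1.pos]
    rw [Finset.sum_congr rfl fun j _ => h2 j]
    exact (sum_upz ℓ.2.1.pos M hc f).symm
  rw [H783.Tl_coe, tFun, e1, e2, Fintype.sum_option]
  exact add_comm _ _

end reps

end Vale.Agent.P022.H227
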